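import Vale.Agent.P027.H123.Val

set_option linter.all false

/-! Soundness and completeness of the formula. -/

namespace Vale.Agent.P027.H123

open MvPolynomial Vale.Agent.P345 Vale.Agent.P027 Vale.Agent.P027.HT Vale.Agent.P027.D1
  Vale.Agent.P027.R4.H815

section DD3

variable {q : ℕ} [hq : Fact q.Prime]

lemma pn_le_one_of {x y : ℚ} (hx : padicNorm q x ≤ 1) (hy : padicNorm q y < 1) :
    padicNorm q (x * y) < 1 := by
  rw [padicNorm.mul]
  have h2 := padicNorm.nonneg (p := q) x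
  have h3 := padicNorm.nonneg (p := q) y
  nlinarith

/-- if the denominator of a fraction in lowest terms is small, the fraction is large -/
lemma one_lt_of_small {y a d u v : ℚ} (hu : padicNorm q u ≤ 1) (hv : padicNorm q v ≤ 1)
    (ha : padicNorm q a ≤ 1) (e : y * d = a) (e' : u * a + v * d = 1) (hd : padicNorm q d < 1) :
    1 < padicNorm q y := by
  have h6 : padicNorm q (v * d) < 1 := pn_le_one_of hv hd
  have h7 : 1 ≤ padicNorm q (u * a) := by
    by_contra hcon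
    push Not at hcon
    have h8 : padicNorm q (u * a + v * d) < 1 :=
      lt_of_le_of_lt padicNorm.nonarchimedean (max_lt hcon h6)
    rw [e', padicNorm.one] at h8
    exact lt_irrefl _ h8
  have h8 : 1 ≤ padicNorm q a := by
    rw [padicNorm.mul] at h7
    have h2 := padicNorm.nonneg (p := q) a
    have h3 := padicNorm.nonneg (p := q) u
    nlinarith
  rw [← e, padicNorm.mul] at h8
  by_contra hcon
  push Not at hcon
  have h2 := padicNorm.nonneg (p := q) d
  have h3 := padicNorm.nonneg (p := q) y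
  nlinarith

end DD3

theorem denDvd3_sound {R : Set ℚ} {x y z : ℚ} (h : DenDvd3 R x y z) {q : ℕ} (hq : q.Prime)
    (hR : ∀ t ∈ R, ¬ q ∣ t.den) (hx : q ∣ x.den) : q ∣ y.den ∨ q ∣ z.den := by
  have : Fact q.Prime := ⟨hq⟩
  have hR' : ∀ t ∈ R, padicNorm q t ≤ 1 := fun t ht => (not_dvd_den_iff t).1 (hR t ht)
  obtain ⟨a, ha, d, hd, u, hu, v, hv, a', ha', d', hd', u', hu', v', hv', a'', ha'', d'', hd'',
    u'', hu'', v'', hv'', w, hw, e1, e2, e3, e4, e5, e6, e7⟩ := h
  rw [D1.dvd_den_iff] at hx ⊢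
  rw [D1.dvd_den_iff]
  have n1 : padicNorm q x * padicNorm q d ≤ 1 := by
    rw [← padicNorm.mul, e1]; exact hR' a ha
  have hd1 : padicNorm q d < 1 := by
    by_contra hcon
    push Not at hcon
    have := padicNorm.nonneg (p := q) d
    nlinarith
  have h7 : padicNorm q (d' * d'') < 1 := by
    rw [e7]
    exact pn_le_one_of (hR' w hw) hd1
  by_cases h8 : padicNorm q d' < 1
  · exact Or.inl (one_lt_of_small (hR' _ hu') (hR' _ hv') (hR' _ ha') e3 e4 h8)
  · right
    refine one_lt_of_small (hR' _ hu'') (hR' _ hv'') (hR' _ ha'') e5 e6 ?_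
    push Not at h8
    rw [padicNorm.mul] at h7
    have h2 := padicNorm.nonneg (p := q) d''
    nlinarith

theorem denDvd3_complete {R : Set ℚ} (hZ : ∀ z : ℤ, (z : ℚ) ∈ R) {x y z : ℚ}
    (h : (y.den : ℚ) * z.den / x.den ∈ R) : DenDvd3 R x y z := by
  obtain ⟨u, v, huv⟩ := exists_bezout x
  obtain ⟨u', v', huv'⟩ := exists_bezout y
  obtain ⟨u'', v'', huv''⟩ := exists_bezout z
  have hx0 : (x.den : ℚ) ≠ 0 := by exact_mod_cast x.den_ne_zero
  have key : ∀ x : ℚ, x * (((x.den : ℕ) : ℤ) : ℚ) = ((x.num : ℤ) : ℚ) := by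
    intro x
    rw [Int.cast_natCast]
    nth_rw 1 [← Rat.num_div_den x]
    exact div_mul_cancel₀ _ (by exact_mod_cast x.den_ne_zero)
  refine ⟨_, hZ x.num, _, hZ x.den, _, hZ u, _, hZ v, _, hZ y.num, _, hZ y.den, _, hZ u', _,
    hZ v', _, hZ z.num, _, hZ z.den, _, hZ u'', _, hZ v'', _, h, key x, huv, key y, huv', key z,
    huv'', ?_⟩
  push_cast
  field_simp

lemma norm_den {q : ℕ} [hq : Fact q.Prime] {x : ℚ} (hd : q ∣ x.den) :
    padicNorm q (x.den : ℚ) * padicNorm q x = 1 := by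
  have h1 : ¬ (q : ℤ) ∣ x.num := by
    intro h
    have h2 : q ∣ x.num.natAbs := Int.natCast_dvd.1 h
    have h3 := Nat.dvd_gcd h2 hd
    rw [x.reduced.gcd_eq_one] at h3
    exact hq.out.one_lt.ne' (Nat.dvd_one.1 h3)
  have hx0 : (x.den : ℚ) ≠ 0 := by exact_mod_cast x.den_ne_zero
  rw [← padicNorm.mul, mul_comm, ← Rat.num_div_den x]
  rw [Rat.num_div_den x]
  have e : x * (x.den : ℚ) = (x.num : ℚ) := by
    nth_rw 1 [← Rat.num_div_den x]
    exact div_mul_cancel₀ _ hx0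
  rw [e]
  exact (padicNorm.int_eq_one_iff x.num).2 h1

/-- killers -/
lemma killer_mem {K : ℕ → ℕ} {Kl : ℕ → ℕ → Prop} {a i : ℕ} (h : Kl a i)
    (hex : ∃ q : ℕ, q.Prime ∧ Ord q (kord K a i)) : ∃ q ∈ KT K Kl, Ord q (kord K a i) := by
  classical
  obtain ⟨h1, h2⟩ := Nat.find_spec hex
  refine ⟨Nat.find hex, ⟨h1, a, i, h, h2, fun q' hq' hp ho => ?_⟩, h2⟩
  exact Nat.find_min hex hq' ⟨hp, ho⟩

lemma idx5 (N : ℤ) : (5 : ℕ) • ((2 * N) • P0) = (5 * (2 * N)) • P0 := by
  rw [← natCast_zsmul, ← mul_zsmul]; rfl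

lemma idx2 (N : ℤ) : (2 : ℕ) • ((2 * N) • P0) = (4 * N) • P0 := by
  rw [← natCast_zsmul, ← mul_zsmul]
  congr 1
  push_cast
  ring

lemma idx10 (N : ℤ) : (10 : ℕ) • ((2 * N) • P0) = (4 * (5 * N)) • P0 := by
  rw [← natCast_zsmul, ← mul_zsmul]
  congr 1
  push_cast
  ring

lemma v_pow_self (p : ℕ) [hp : Fact p.Prime] (n : ℕ) : padicValRat p ((p : ℚ) ^ n) = n := by
  rw [padicValRat.pow, padicValRat.self hp.out.one_lt, mul_one]

lemma v3_nine : padicValRat 3 9 = 2 := by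
  have := v_pow_self 3 2
  norm_num at this
  exact this

lemma v5_625 : padicValRat 5 625 = 4 := by
  have : Fact (Nat.Prime 5) := ⟨Nat.prime_five⟩
  have := v_pow_self 5 4
  norm_num at this
  exact this

/-- valuation of the expressions in the formula -/
lemma val_expr {p : ℕ} [hp : Fact p.Prime] {s c x : ℚ} (hs : s ≠ 0) (hc : c ≠ 0) (hx : x ≠ 0) :
    padicValRat p (s * (c ^ 2 * x)) = padicValRat p s + 2 * padicValRat p c + padicValRat p x := by
  rw [padicValRat.mul hs (mul_ne_zero (pow_ne_zero 2 hc) hx),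
    padicValRat.mul (pow_ne_zero 2 hc) hx, padicValRat.pow]
  push_cast
  ring

lemma val_one_div {p : ℕ} [hp : Fact p.Prime] (x : ℚ) :
    padicValRat p (1 / x) = - padicValRat p x := by
  rw [one_div, padicValRat.inv]

lemma v3_two_mul {N : ℤ} (hN : N ≠ 0) : padicValInt 3 (2 * N) = padicValInt 3 N := by
  rw [padicValInt.mul (by norm_num) hN]
  have : padicValInt 3 2 = 0 := padicValInt.eq_zero_of_not_dvd (by norm_num)
  omega

/-- the killer divides the large denominator -/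
lemma pow_dvd_of_val {p : ℕ} [hp : Fact p.Prime] {N : ℤ} {n : ℕ} (h : n ≤ padicValInt p N) :
    (p : ℤ) ^ n ∣ N := (padicValInt_dvd_iff n N).2 (Or.inr h)

lemma val_of_pow_dvd {p : ℕ} [hp : Fact p.Prime] {N : ℤ} (hN : N ≠ 0) {n : ℕ}
    (h : (p : ℤ) ^ n ∣ N) : n ≤ padicValInt p N := ((padicValInt_dvd_iff n N).1 h).resolve_left hN

theorem rowSound : RowSound := by
  intro K Kl hK hex R hR a B hB hkl b hF
  have h5 : Fact (Nat.Prime 5) := ⟨Nat.prime_five⟩
  obtain ⟨⟨hb, hB0, hc, he⟩, V2, V3, ⟨⟨N2, rfl⟩, ⟨N3, rfl⟩, hV2, hV3⟩, ⟨h5a, h5b⟩,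
    ⟨h3a, h3b, h3c⟩, hD⟩ := hF
  have hN2 : N2 ≠ 0 := fun h => hV2 (by rw [h]; simp)
  have hN3 : N3 ≠ 0 := fun h => hV3 (by rw [h]; simp)
  rw [idx5] at h5a h5b hD
  rw [idx2] at h3a h3b
  rw [idx10] at h3c
  obtain ⟨x5, v5⟩ := val_five (k := 2 * N3) (by omega)
  obtain ⟨x2, v2⟩ := val_three hN2
  obtain ⟨x3, v3⟩ := val_three (k := 5 * N3) (by omega)
  -- five-adic valuation
  rw [val_one_div] at h5b
  rw [val_expr (by norm_num) hc x5, v5_625, v5] at h5a h5b
  have hc5 : padicValRat 5 ((5 : ℚ) ^ a) = a := by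
    have := v_pow_self 5 a
    exact_mod_cast this
  rw [hc5] at h5a h5b
  have hv5 : padicValInt 5 (2 * N3) = a := by omega
  -- three-adic valuations
  rw [val_one_div, val_expr (by norm_num) hB0 x2, v3_nine, v2, padicValRat.of_int] at h3a
  rw [val_expr (by norm_num) hb x2, v3_nine, v2] at h3b
  rw [val_one_div, val_expr (by norm_num) he x3, v3_nine, v3, padicValRat.pow] at h3c
  set v := padicValInt 3 N2 with hvdef
  set v' := padicValInt 3 (5 * N3) with hv'def
  have k1 : padicValInt 3 B ≤ v := by omega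
  have k2 : (v : ℤ) ≤ padicValRat 3 b := by omega
  have k3 : (K a : ℤ) * padicValRat 3 b ≤ v' := by omega
  have k4 : K a * v ≤ v' := by
    have : (K a : ℤ) * v ≤ v' := le_trans (mul_le_mul_of_nonneg_left k2 (by positivity)) k3
    exact_mod_cast this
  have hv1 : 1 ≤ v := hB.trans k1
  -- the window
  set i := Nat.log (K a) v + 1 with hi
  have w1 : v < K a ^ i := Nat.lt_pow_succ_log_self (by have := hK a; omega) v
  have w2 : K a ^ i ≤ v' := by
    have w3 : K a ^ Nat.log (K a) v ≤ v := Nat.pow_log_le_self (K a) (by omega)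
    calc K a ^ i = K a * K a ^ Nat.log (K a) v := by rw [hi, pow_succ, mul_comm]
      _ ≤ K a * v := Nat.mul_le_mul_left _ w3
      _ ≤ v' := k4
  have hkill : Kl a i := hkl i (lt_of_le_of_lt k1 w1)
  obtain ⟨q, hqT, hqo⟩ := killer_mem hkill (hex a i hkill)
  have hq : q.Prime := hqT.1
  have hdvd : ((kord K a i : ℕ) : ℤ) ∣ 5 * (2 * N3) := by
    unfold kord
    push_cast
    have hco : IsCoprime ((3 : ℤ) ^ (K a ^ i)) ((5 : ℤ) ^ (a + 1)) :=
      IsCoprime.pow (by norm_num [Int.isCoprime_iff_gcd_eq_one])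
    refine hco.mul_dvd ?_ ?_
    · have h1 : (3 : ℤ) ^ (K a ^ i) ∣ 5 * N3 := by
        have := pow_dvd_of_val (p := 3) (N := 5 * N3) (n := K a ^ i) w2
        exact_mod_cast this
      refine h1.trans ⟨2, by ring⟩
    · have h1 : (5 : ℤ) ^ a ∣ 2 * N3 := by
        have := pow_dvd_of_val (p := 5) (N := 2 * N3) (n := a) (by omega)
        exact_mod_cast this
      obtain ⟨t, ht⟩ := h1
      rw [ht]
      exact ⟨t, by ring⟩
  have hx : q ∣ (xc ((5 * (2 * N3)) • P0)).den := by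
    have h1 := (hqo.2 (5 * (2 * N3))).2 hdvd
    rcases h1 with h1 | h1
    · omega
    · exact h1
  rcases denDvd3_sound hD hq (fun t ht => hR.sub t ht q hqT) hx with h | h
  · have h1 : ((kord K a i : ℕ) : ℤ) ∣ 2 * N2 := (hqo.2 (2 * N2)).1 (Or.inr h)
    have h2 : ((3 : ℕ) : ℤ) ^ (K a ^ i) ∣ 2 * N2 := by
      refine dvd_trans ?_ h1
      unfold kord
      push_cast
      exact dvd_mul_right _ _
    have h3 := val_of_pow_dvd (p := 3) (by omega) h2
    rw [v3_two_mul hN2] at h3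
    omega
  · have h1 : ((kord K a i : ℕ) : ℤ) ∣ 2 * N3 := (hqo.2 (2 * N3)).1 (Or.inr h)
    have h2 : ((5 : ℕ) : ℤ) ^ (a + 1) ∣ 2 * N3 := by
      refine dvd_trans ?_ h1
      unfold kord
      push_cast
      exact dvd_mul_left _ _
    have h3 := val_of_pow_dvd (p := 5) (by omega) h2
    omega

end Vale.Agent.P027.H123
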