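import Vale.Agent.P027.H123.Defs
import Vale.Agent.P027.R4.H712.Triv

set_option linter.all false

/-! The set of the omitted primes is extremely sparse. -/

namespace Vale.Agent.P027.H123

open Filter Topology
open Vale.Agent.P345 Vale.Agent.P027 Vale.Agent.P027.HT Vale.Agent.P027.D1

/-- the bound by the number of pairs -/
theorem card_KT_le {K : ℕ → ℕ} {Kl : ℕ → ℕ → Prop} (hK : ∀ a, 2 ≤ K a)
    (hi : ∀ a i, Kl a i → 1 ≤ i) (n A : ℕ)
    (hA : ∀ a i, Kl a i → K a ^ i ≤ Nat.log 3 (2 * n + 2) → a < A) :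
    (KT K Kl ∩ Set.Iic n).ncard ≤
      ∑ a ∈ Finset.range A, Nat.log (K a) (Nat.log 3 (2 * n + 2)) := by
  classical
  set L := Nat.log 3 (2 * n + 2) with hL
  let f : (Σ _ : ℕ, ℕ) → ℕ := fun u =>
    if h : ∃ q : ℕ, q.Prime ∧ Ord q (kord K u.1 u.2) then Nat.find h else 0
  let S : Finset (Σ _ : ℕ, ℕ) :=
    (Finset.range A).sigma (fun a => Finset.Icc 1 (Nat.log (K a) L))
  have hsub : KT K Kl ∩ Set.Iic n ⊆ (S.image f : Set ℕ) := by
    rintro q ⟨⟨hq, a, i, hkl, ho, hm⟩, hqn⟩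
    have hb := H712.triv q _ hq ho
    have hqn' : q ≤ n := hqn
    have h3 : 3 ^ (K a ^ i) ≤ 2 * n + 2 := by
      have p5 : 0 < 5 ^ (a + 1) := by positivity
      have : 3 ^ (K a ^ i) ≤ 3 ^ (K a ^ i) * 5 ^ (a + 1) := Nat.le_mul_of_pos_right _ p5
      unfold kord at hb
      omega
    have hKi : K a ^ i ≤ L := Nat.le_log_of_pow_le (by norm_num) h3
    have h1 := hi a i hkl
    have hL0 : L ≠ 0 := by
      have : 1 ≤ K a ^ i := Nat.one_le_pow _ _ (by have := hK a; omega)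
      omega
    have hiL : i ≤ Nat.log (K a) L := Nat.le_log_of_pow_le (by have := hK a; omega) hKi
    rw [Finset.coe_image]
    refine ⟨⟨a, i⟩, ?_, ?_⟩
    · simp only [S, Finset.coe_sigma, Set.mem_sigma_iff, Finset.coe_range, Set.mem_Iio,
        Finset.coe_Icc, Set.mem_Icc]
      exact ⟨hA a i hkl hKi, h1, hiL⟩
    · have hex : ∃ q : ℕ, q.Prime ∧ Ord q (kord K a i) := ⟨q, hq, ho⟩
      show (if h : ∃ q : ℕ, q.Prime ∧ Ord q (kord K a i) then Nat.find h else 0) = q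
      rw [dif_pos hex]
      refine le_antisymm (Nat.find_min' hex ⟨hq, ho⟩) ?_
      by_contra hcon
      push Not at hcon
      obtain ⟨k1, k2⟩ := Nat.find_spec hex
      exact hm _ hcon k1 k2
  calc (KT K Kl ∩ Set.Iic n).ncard ≤ ((S.image f : Finset ℕ) : Set ℕ).ncard :=
        Set.ncard_le_ncard hsub (Finset.finite_toSet _)
    _ = (S.image f).card := Set.ncard_coe_finset _
    _ ≤ S.card := Finset.card_image_le
    _ = ∑ a ∈ Finset.range A, Nat.log (K a) L := by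
        simp only [S, Finset.card_sigma, Nat.card_Icc, Nat.add_sub_cancel]

lemma sum_inv_le (A : ℕ) :
    ∑ a ∈ Finset.range A, (1 : ℝ) / ((a + 1) * (a + 2)) = 1 - 1 / (A + 1) := by
  induction A with
  | zero => simp
  | succ A ih =>
    rw [Finset.sum_range_succ, ih]
    have h1 : (A : ℝ) + 1 ≠ 0 := by positivity
    have h2 : (A : ℝ) + 2 ≠ 0 := by positivity
    have h3 : (A : ℝ) + 1 + 1 ≠ 0 := by positivity
    push_cast
    field_simp
    ring

/-- size of the double logarithm -/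
lemma log_L_le {n : ℕ} (hn : 3 ≤ n) (h2 : Real.log 2 ≤ Real.log (Real.log n)) :
    Real.log (Nat.log 3 (2 * n + 2) : ℕ) ≤ 2 * Real.log (Real.log n) := by
  have hn3 : (3 : ℝ) ≤ n := by exact_mod_cast hn
  have hl3 : 1 ≤ Real.log 3 := by
    rw [Real.le_log_iff_exp_le (by norm_num)]
    have := Real.exp_one_lt_d9
    linarith
  have hln : 1 ≤ Real.log n := hl3.trans (Real.log_le_log (by norm_num) hn3)
  have hlog : ((Nat.log 3 (2 * n + 2) : ℕ) : ℝ) ≤ 2 * Real.log n := by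
    have h := Real.natLog_le_logb (2 * n + 2) 3
    rw [Real.logb] at h
    refine h.trans ?_
    have h4 : Real.log ((2 * n + 2 : ℕ) : ℝ) ≤ 2 * Real.log n := by
      have h5 : ((2 * n + 2 : ℕ) : ℝ) ≤ (n : ℝ) ^ 2 := by
        push_cast
        nlinarith
      have h6 := Real.log_le_log (by positivity) h5
      rwa [Real.log_pow] at h6
    have h0 : 0 ≤ Real.log ((2 * n + 2 : ℕ) : ℝ) := Real.log_natCast_nonneg _
    have e3 : ((3 : ℕ) : ℝ) = 3 := by norm_num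
    rw [e3]
    calc Real.log ((2 * n + 2 : ℕ) : ℝ) / Real.log 3 ≤ Real.log ((2 * n + 2 : ℕ) : ℝ) / 1 :=
          div_le_div_of_nonneg_left h0 one_pos hl3
      _ ≤ _ := by rw [div_one]; exact h4
  rcases Nat.eq_zero_or_pos (Nat.log 3 (2 * n + 2)) with h0 | h0
  · rw [h0, Nat.cast_zero, Real.log_zero]
    have : 0 ≤ Real.log 2 := Real.log_nonneg (by norm_num)
    linarith
  · have h0' : (0 : ℝ) < (Nat.log 3 (2 * n + 2) : ℕ) := by exact_mod_cast h0
    have h1 := Real.log_le_log h0' hlog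
    rw [Real.log_mul (by norm_num) (by linarith)] at h1
    linarith

lemma ev_large : ∀ᶠ n : ℕ in atTop, 3 ≤ n ∧ Real.log 2 ≤ Real.log (Real.log n) := by
  have h1 : Tendsto (fun n : ℕ => Real.log (Real.log (n : ℝ))) atTop atTop :=
    Real.tendsto_log_atTop.comp (Real.tendsto_log_atTop.comp tendsto_natCast_atTop_atTop)
  filter_upwards [eventually_ge_atTop 3, h1.eventually_ge_atTop (Real.log 2)] with n h2 h3
  exact ⟨h2, h3⟩

/-- the exponents with growing bases -/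
def Kc (c a : ℕ) : ℕ := 2 ^ (c * ((a + 1) * (a + 2)))

lemma Kc_ge {c : ℕ} (hc : 1 ≤ c) (a : ℕ) : 2 ≤ Kc c a ∧ a < Kc c a := by
  unfold Kc
  have h1 : a + 1 ≤ c * ((a + 1) * (a + 2)) := by
    calc a + 1 = 1 * ((a + 1) * 1) := by ring
      _ ≤ c * ((a + 1) * (a + 2)) := Nat.mul_le_mul hc (Nat.mul_le_mul le_rfl (by omega))
  have h2 : 2 ^ (a + 1) ≤ 2 ^ (c * ((a + 1) * (a + 2))) := Nat.pow_le_pow_right (by norm_num) h1
  have h3 : a + 1 < 2 ^ (a + 1) := Nat.lt_pow_self (by norm_num)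
  have h4 : 2 ^ 1 ≤ 2 ^ (a + 1) := Nat.pow_le_pow_right (by norm_num) (by omega)
  omega

theorem count1 {ε : ℝ} (hε : 0 < ε) : ∃ c₀ : ℕ, ∀ c, c₀ ≤ c → 1 ≤ c → ∀ Kl : ℕ → ℕ → Prop,
    (∀ a i, Kl a i → 1 ≤ i) → ∀ᶠ n : ℕ in atTop,
      ((KT (Kc c) Kl ∩ Set.Iic n).ncard : ℝ) ≤ ε * Real.log (Real.log n) := by
  obtain ⟨c₀, hc₀⟩ := exists_nat_gt (4 / ε)
  refine ⟨c₀, fun c hc hc1 Kl hi => ?_⟩
  filter_upwards [ev_large] with n hn
  obtain ⟨hn3, hn2⟩ := hn
  set L := Nat.log 3 (2 * n + 2) with hL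
  have h1 := card_KT_le (fun a => (Kc_ge hc1 a).1) hi n (L + 1) (fun a i hkl hKi => by
    have h2 := (Kc_ge hc1 a).2
    have h3 : Kc c a ^ 1 ≤ Kc c a ^ i :=
      Nat.pow_le_pow_right (by omega) (hi a i hkl)
    rw [pow_one] at h3
    omega)
  have h2 : ((KT (Kc c) Kl ∩ Set.Iic n).ncard : ℝ) ≤
      ∑ a ∈ Finset.range (L + 1), (Nat.log (Kc c a) L : ℝ) := by exact_mod_cast h1
  have hlogL : Real.log (L : ℕ) ≤ 2 * Real.log (Real.log n) := log_L_le hn3 hn2
  have hl0 : 0 ≤ Real.log (L : ℕ) := Real.log_natCast_nonneg _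
  have hl2 : 0 < Real.log 2 := Real.log_pos (by norm_num)
  have hl2' : 1 / 2 ≤ Real.log 2 := by
    have := Real.log_two_gt_d9
    linarith
  have hcpos : (0 : ℝ) < c := by
    have : (0 : ℕ) < c := by omega
    exact_mod_cast this
  have h3 : ∀ a ∈ Finset.range (L + 1), (Nat.log (Kc c a) L : ℝ) ≤
      (Real.log L / (c * Real.log 2)) * ((1 : ℝ) / ((a + 1) * (a + 2))) := by
    intro a _
    have h4 := Real.natLog_le_logb L (Kc c a)
    refine h4.trans (le_of_eq ?_)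
    rw [Real.logb]
    have h5 : Real.log ((Kc c a : ℕ) : ℝ) = (c * ((a + 1) * (a + 2))) * Real.log 2 := by
      unfold Kc
      push_cast
      rw [Real.log_pow]
      push_cast
      ring
    rw [h5]
    have h6 : (a : ℝ) + 1 ≠ 0 := by positivity
    have h7 : (a : ℝ) + 2 ≠ 0 := by positivity
    field_simp
  have h4 : ∑ a ∈ Finset.range (L + 1), (Nat.log (Kc c a) L : ℝ) ≤
      Real.log L / (c * Real.log 2) := by
    refine (Finset.sum_le_sum h3).trans ?_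
    rw [← Finset.mul_sum, sum_inv_le]
    have h5 : 0 ≤ Real.log L / (c * Real.log 2) := by positivity
    have h6 : (1 : ℝ) - 1 / (((L + 1 : ℕ) : ℝ) + 1) ≤ 1 := by
      have : (0 : ℝ) ≤ 1 / (((L + 1 : ℕ) : ℝ) + 1) := by positivity
      linarith
    calc _ ≤ Real.log L / (c * Real.log 2) * 1 := mul_le_mul_of_nonneg_left h6 h5
      _ = _ := mul_one _
  have hll : 0 < Real.log (Real.log n) := lt_of_lt_of_le hl2 hn2
  have hcε : 4 ≤ ε * c := by
    have h5 : (c₀ : ℝ) ≤ c := by exact_mod_cast hc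
    rw [div_lt_iff₀ hε] at hc₀
    nlinarith
  refine (h2.trans h4).trans ?_
  rw [div_le_iff₀ (by positivity)]
  have h5 : 2 ≤ ε * c * Real.log 2 := by nlinarith
  calc Real.log L ≤ 2 * Real.log (Real.log n) := hlogL
    _ ≤ (ε * c * Real.log 2) * Real.log (Real.log n) := mul_le_mul_of_nonneg_right h5 hll.le
    _ = _ := by ring

theorem count2 {g : ℕ → ℕ} (hg : Monotone g) {Kl : ℕ → ℕ → Prop}
    (hi : ∀ a i, Kl a i → 1 ≤ i ∧ ∃ m ≤ i, 4 * (a + 1) ≤ g m) : ∀ᶠ n : ℕ in atTop,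
      ((KT (fun _ => 2) Kl ∩ Set.Iic n).ncard : ℝ) ≤ g n * Real.log (Real.log n) := by
  filter_upwards [ev_large] with n hn
  obtain ⟨hn3, hn2⟩ := hn
  set L := Nat.log 3 (2 * n + 2) with hL
  have hLn : L ≤ n + 1 := by
    rw [hL]
    apply Nat.le_of_lt_succ
    apply Nat.log_lt_of_lt_pow (by omega)
    have : n + 2 < 3 ^ (n + 2) := Nat.lt_pow_self (by norm_num)
    have h2 : 2 * n + 2 < 3 ^ (n + 2) := by
      have h3 : n + 1 < 3 ^ (n + 1) := Nat.lt_pow_self (by norm_num)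
      have h4 : 3 ^ (n + 2) = 3 * 3 ^ (n + 1) := by ring
      omega
    exact h2
  have h1 := card_KT_le (K := fun _ => 2) (fun _ => le_rfl) (fun a i h => (hi a i h).1) n (g n / 4)
    (fun a i hkl hKi => by
      obtain ⟨-, m, hmi, hgm⟩ := hi a i hkl
      have h3 : i < 2 ^ i := Nat.lt_pow_self (by norm_num)
      have h4 : g m ≤ g n := hg (by omega)
      omega)
  have h2 : ((KT (fun _ => 2) Kl ∩ Set.Iic n).ncard : ℝ) ≤
      ((g n / 4 : ℕ) : ℝ) * (Nat.log 2 L : ℝ) := by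
    have h5 : (KT (fun _ => 2) Kl ∩ Set.Iic n).ncard ≤ (g n / 4) * Nat.log 2 L := by
      refine h1.trans (le_of_eq ?_)
      rw [Finset.sum_const, Finset.card_range, smul_eq_mul]
    exact_mod_cast h5
  have hlogL : Real.log (L : ℕ) ≤ 2 * Real.log (Real.log n) := log_L_le hn3 hn2
  have hl0 : 0 ≤ Real.log (L : ℕ) := Real.log_natCast_nonneg _
  have hl2 : 0 < Real.log 2 := Real.log_pos (by norm_num)
  have hl2' : 1 / 2 ≤ Real.log 2 := by
    have := Real.log_two_gt_d9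
    linarith
  have hll : 0 < Real.log (Real.log n) := lt_of_lt_of_le hl2 hn2
  have h3 : (Nat.log 2 L : ℝ) ≤ 4 * Real.log (Real.log n) := by
    have h4 := Real.natLog_le_logb L 2
    rw [Real.logb] at h4
    refine h4.trans ?_
    have e2 : ((2 : ℕ) : ℝ) = 2 := by norm_num
    rw [e2, div_le_iff₀ hl2]
    nlinarith
  have h4 : ((g n / 4 : ℕ) : ℝ) ≤ (g n : ℝ) / 4 := by
    have := @Nat.cast_div_le ℝ _ _ _ (g n) 4
    exact_mod_cast this
  calc _ ≤ ((g n / 4 : ℕ) : ℝ) * (Nat.log 2 L : ℝ) := h2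
    _ ≤ ((g n : ℝ) / 4) * (4 * Real.log (Real.log n)) :=
        mul_le_mul h4 h3 (by positivity) (by positivity)
    _ = _ := by ring

end Vale.Agent.P027.H123
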