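import Vale.Agent.P027.H123.Defs
import Vale.Agent.P027.R4.H297.CompT
import Vale.Agent.P027.R4.H712.Triv

set_option linter.all false

/-! The set of the omitted primes is computable. -/

namespace Vale.Agent.P027.H123

open Vale.Agent.P345 Vale.Agent.P027 Vale.Agent.P027.HT Vale.Agent.P027.D1
  Vale.Agent.P027.R4.H297

/-- bounds for the indices of a killer -/
lemma kord_bound {K : ℕ → ℕ} (hK : ∀ a, 2 ≤ K a) {q a i : ℕ} (hq : q.Prime)
    (ho : Ord q (kord K a i)) : a < 2 * q + 3 ∧ i < 2 * q + 3 := by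
  have h1 := H712.triv q _ hq ho
  unfold kord at h1
  have h5 : a + 1 < 5 ^ (a + 1) := Nat.lt_pow_self (by norm_num)
  have h3 : K a ^ i < 3 ^ (K a ^ i) := Nat.lt_pow_self (by norm_num)
  have hi : i < K a ^ i := Nat.lt_pow_self (by have := hK a; omega)
  have p3 : 0 < 3 ^ (K a ^ i) := by positivity
  have p5 : 0 < 5 ^ (a + 1) := by positivity
  constructor
  · have : 5 ^ (a + 1) ≤ 3 ^ (K a ^ i) * 5 ^ (a + 1) := Nat.le_mul_of_pos_left _ p3
    omega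
  · have : 3 ^ (K a ^ i) ≤ 3 ^ (K a ^ i) * 5 ^ (a + 1) := Nat.le_mul_of_pos_right _ p5
    omega

lemma ord35_iff {q s t : ℕ} (hq : q.Prime) :
    Ord q (3 ^ (s + 1) * 5 ^ (t + 1)) ↔
      q ∣ (xc (((3 ^ (s + 1) * 5 ^ (t + 1) : ℕ) : ℤ) • P0)).den ∧
      ¬ q ∣ (xc (((3 ^ s * 5 ^ (t + 1) : ℕ) : ℤ) • P0)).den ∧
      ¬ q ∣ (xc (((3 ^ (s + 1) * 5 ^ t : ℕ) : ℤ) • P0)).den := by
  have h0 : ∀ i j : ℕ, ((3 ^ i * 5 ^ j : ℕ) : ℤ) ≠ 0 := fun i j => by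
    exact_mod_cast (Nat.mul_pos (pow_pos (by norm_num) i) (pow_pos (by norm_num) j)).ne'
  rw [← dv_iff_den (h0 (s + 1) (t + 1)), ← dv_iff_den (h0 s (t + 1)),
    ← dv_iff_den (h0 (s + 1) t)]
  have p3 : 0 < 3 ^ s := by positivity
  have p5 : 0 < 5 ^ t := by positivity
  have pp : 0 < 3 ^ s * 5 ^ t := Nat.mul_pos p3 p5
  have e1 : 3 ^ (s + 1) * 5 ^ (t + 1) = 15 * (3 ^ s * 5 ^ t) := by ring
  have e2 : 3 ^ s * 5 ^ (t + 1) = 5 * (3 ^ s * 5 ^ t) := by ring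
  have e3 : 3 ^ (s + 1) * 5 ^ t = 3 * (3 ^ s * 5 ^ t) := by ring
  constructor
  · intro h
    refine ⟨(h.2 _).2 dvd_rfl, fun h1 => ?_, fun h1 => ?_⟩
    · have h2 := Int.natCast_dvd_natCast.1 ((h.2 _).1 h1)
      have h3 := Nat.le_of_dvd (by rw [e2]; omega) h2
      rw [e1, e2] at h3
      omega
    · have h2 := Int.natCast_dvd_natCast.1 ((h.2 _).1 h1)
      have h3 := Nat.le_of_dvd (by rw [e3]; omega) h2
      rw [e1, e3] at h3
      omega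
  · rintro ⟨h1, h2, h3⟩
    obtain ⟨M, hM, hMm⟩ := rowO q hq _ (by rw [e1]; omega) h1
    rw [hM.2] at h2 h3
    have b1 : ¬ M ∣ 3 ^ s * 5 ^ (t + 1) := fun hh => h2 (Int.natCast_dvd_natCast.2 hh)
    have b2 : ¬ M ∣ 3 ^ (s + 1) * 5 ^ t := fun hh => h3 (Int.natCast_dvd_natCast.2 hh)
    obtain ⟨k, hk⟩ := hMm
    have hk1 : k = 1 := by
      by_contra hk1
      obtain ⟨p, hp, hpk⟩ := Nat.exists_prime_and_dvd hk1
      have hp15 : p ∣ 3 ^ (s + 1) * 5 ^ (t + 1) := by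
        rw [hk]; exact hpk.mul_left _
      obtain ⟨j, rfl⟩ := hpk
      rcases (hp.dvd_mul).1 hp15 with h3' | h5'
      · have : p = 3 := (Nat.prime_dvd_prime_iff_eq hp Nat.prime_three).1 (hp.dvd_of_dvd_pow h3')
        subst this
        apply b1
        refine ⟨j, ?_⟩
        have : 3 * (3 ^ s * 5 ^ (t + 1)) = 3 * (M * j) := by
          rw [e1] at hk
          rw [e2]
          linarith
        exact Nat.eq_of_mul_eq_mul_left (by norm_num) this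
      · have : p = 5 := (Nat.prime_dvd_prime_iff_eq hp Nat.prime_five).1 (hp.dvd_of_dvd_pow h5')
        subst this
        apply b2
        refine ⟨j, ?_⟩
        have : 5 * (3 ^ (s + 1) * 5 ^ t) = 5 * (M * j) := by
          rw [e1] at hk
          rw [e3]
          linarith
        exact Nat.eq_of_mul_eq_mul_left (by norm_num) this
    rw [hk, hk1, mul_one]
    exact hM

lemma odd35 (i j : ℕ) : (3 ^ i * 5 ^ j) % 2 = 1 :=
  Nat.odd_iff.1 ((Odd.pow (by decide)).mul (Odd.pow (by decide)))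

theorem rowComp : RowComp := by
  intro K Kl hK hKl hK2
  obtain ⟨dn, hdn, hd⟩ := exists_dn
  -- the order of `q` is `3 ^ s 5 ^ (t + 1)`
  let F : ℕ → ℕ → ℕ := fun s t => dn ((3 ^ s * 5 ^ t - 1) / 2)
  have hF : ∀ s t : ℕ, F s t = (xc (((3 ^ s * 5 ^ t : ℕ) : ℤ) • P0)).den := by
    intro s t
    simp only [F]
    rw [hd, odd_index (odd35 s t)]
  have pF : ∀ {α : Type} [Primcodable α] {f g : α → ℕ}, Primrec f → Primrec g →
      Primrec fun x => F (f x) (g x) := by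
    intro α _ f g hf hg
    exact hdn.comp (Primrec.nat_div.comp (Primrec.nat_sub.comp
      (Primrec.nat_mul.comp (pr_pow (Primrec.const 3) hf) (pr_pow (Primrec.const 5) hg))
      (Primrec.const 1)) (Primrec.const 2))
  let PO : ℕ × ℕ × ℕ → Prop := fun u =>
    u.1 ∣ F (K u.2.1 ^ u.2.2) (u.2.1 + 1) ∧ ¬ u.1 ∣ F (K u.2.1 ^ u.2.2 - 1) (u.2.1 + 1) ∧
      ¬ u.1 ∣ F (K u.2.1 ^ u.2.2) u.2.1
  have ha : Primrec fun u : ℕ × ℕ × ℕ => u.2.1 := Primrec.fst.comp Primrec.snd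
  have hi : Primrec fun u : ℕ × ℕ × ℕ => u.2.2 := Primrec.snd.comp Primrec.snd
  have hs : Primrec fun u : ℕ × ℕ × ℕ => K u.2.1 ^ u.2.2 := pr_pow (hK.comp ha) hi
  have hs1 : Primrec fun u : ℕ × ℕ × ℕ => K u.2.1 ^ u.2.2 - 1 :=
    Primrec.nat_sub.comp hs (Primrec.const 1)
  have ha1 : Primrec fun u : ℕ × ℕ × ℕ => u.2.1 + 1 := Primrec.succ.comp ha
  have hPO : PrimrecPred PO :=
    (pp_dvd Primrec.fst (pF hs ha1)).and ((pp_dvd Primrec.fst (pF hs1 ha1)).not.and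
      (pp_dvd Primrec.fst (pF hs ha)).not)
  have hPO' : ∀ q a i : ℕ, q.Prime → (PO (q, a, i) ↔ Ord q (kord K a i)) := by
    intro q a i hq
    have hpos : 1 ≤ K a ^ i := Nat.one_le_pow _ _ (by have := hK2 a; omega)
    obtain ⟨s, hs⟩ : ∃ s, K a ^ i = s + 1 := ⟨K a ^ i - 1, by omega⟩
    unfold kord
    simp only [PO]
    rw [hs, Nat.add_sub_cancel, ord35_iff hq, hF, hF, hF]
  have hmin : PrimrecPred fun u : ℕ × ℕ × ℕ => ∀ q' < u.1, (q'.Prime → ¬ PO (q', u.2.1, u.2.2)) := by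
    apply all_lt (P := fun q' (u : ℕ × ℕ × ℕ) => (q'.Prime → ¬ PO (q', u.2.1, u.2.2))) _
      Primrec.fst
    have k1 : PrimrecPred fun v : ℕ × (ℕ × ℕ × ℕ) => PO (v.1, v.2.2.1, v.2.2.2) :=
      PrimrecPred.comp hPO (Primrec.pair Primrec.fst
        (Primrec.pair (ha.comp Primrec.snd) (hi.comp Primrec.snd)))
    exact pp_imp (pp_prime Primrec.fst) k1.not
  have hkl : PrimrecPred fun u : ℕ × ℕ × ℕ => Kl u.2.1 u.2.2 := PrimrecRel.comp hKl ha hi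
  have hall : PrimrecPred fun u : ℕ × ℕ × ℕ => Kl u.2.1 u.2.2 ∧ PO u ∧
      ∀ q' < u.1, (q'.Prime → ¬ PO (q', u.2.1, u.2.2)) := hkl.and (hPO.and hmin)
  have hb : Primrec fun q : ℕ => 2 * q + 3 :=
    Primrec.nat_add.comp (Primrec.nat_mul.comp (Primrec.const 2) Primrec.id) (Primrec.const 3)
  have h1 : PrimrecPred fun w : ℕ × ℕ => ∃ i < 2 * w.2 + 3, (Kl w.1 i ∧ PO (w.2, w.1, i) ∧
      ∀ q' < w.2, (q'.Prime → ¬ PO (q', w.1, i))) := by
    apply ex_lt (P := fun i (w : ℕ × ℕ) => (Kl w.1 i ∧ PO (w.2, w.1, i) ∧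
      ∀ q' < w.2, (q'.Prime → ¬ PO (q', w.1, i)))) _ (hb.comp Primrec.snd)
    exact PrimrecPred.comp hall (Primrec.pair (Primrec.snd.comp Primrec.snd)
      (Primrec.pair (Primrec.fst.comp Primrec.snd) Primrec.fst))
  have h2 : PrimrecPred fun q : ℕ => ∃ a < 2 * q + 3, ∃ i < 2 * q + 3, (Kl a i ∧ PO (q, a, i) ∧
      ∀ q' < q, (q'.Prime → ¬ PO (q', a, i))) := by
    apply ex_lt (P := fun a q => ∃ i < 2 * q + 3, (Kl a i ∧ PO (q, a, i) ∧
      ∀ q' < q, (q'.Prime → ¬ PO (q', a, i)))) _ hb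
    exact h1
  have h3 : PrimrecPred fun q : ℕ => q ∈ KT K Kl := by
    refine ((pp_prime Primrec.id).and h2).of_eq (fun q => ?_)
    unfold KT
    rw [Set.mem_setOf_eq]
    refine and_congr_right (fun hq => ?_)
    constructor
    · rintro ⟨a, -, i, -, hkl, hp, hm⟩
      exact ⟨a, i, hkl, (hPO' q a i hq).1 hp, fun q' hq' hp' ho =>
        hm q' hq' hp' ((hPO' q' a i hp').2 ho)⟩
    · rintro ⟨a, i, hkl, ho, hm⟩
      obtain ⟨b1, b2⟩ := kord_bound hK2 hq ho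
      exact ⟨a, b1, i, b2, hkl, (hPO' q a i hq).2 ho, fun q' hq' hp' hp =>
        hm q' hq' hp' ((hPO' q' a i hp').1 hp)⟩
  obtain ⟨i, hi⟩ := h3
  exact ⟨i, hi.to_comp⟩

end Vale.Agent.P027.H123
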