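import Vale.Agent.P027.H123.Main

set_option linter.all false

/-! Completeness of the formula. -/

namespace Vale.Agent.P027.H123

open MvPolynomial Vale.Agent.P345 Vale.Agent.P027 Vale.Agent.P027.HT Vale.Agent.P027.D1
  Vale.Agent.P027.R4.H815

/-- three is not the product of the orders of killers -/
lemma killer_ne {q : ℕ} {m : ℕ} (ho : Ord q m) (h15 : 15 ∣ m) : q ≠ 3 ∧ q ≠ 5 := by
  constructor
  · rintro rfl
    have h : Dv 3 4 := by
      right
      have := norm_four_P0'
      rw [D1.dvd_den_iff, this]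
      norm_num
    have h1 := (ho.2 4).1 h
    have h2 : (15 : ℤ) ∣ 4 := (by exact_mod_cast h15 : (15 : ℤ) ∣ (m : ℤ)).trans h1
    omega
  · rintro rfl
    have : Fact (Nat.Prime 5) := ⟨Nat.prime_five⟩
    have h : Dv 5 5 := by
      right
      have := norm_five_P0
      rw [D1.dvd_den_iff, this]
      norm_num
    have h1 := (ho.2 5).1 h
    have h2 : (15 : ℤ) ∣ 5 := (by exact_mod_cast h15 : (15 : ℤ) ∣ (m : ℤ)).trans h1
    omega

/-- the sizes of the coordinates of a point and a multiple are equal -/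
lemma norm_eq_of_mul {q : ℕ} [hq : Fact q.Prime] {n k : ℤ} (hn : n ≠ 0) (hk : k ≠ 0)
    (hqk : ¬ (q : ℤ) ∣ k) (hd : q ∣ (xc (n • P0)).den) :
    padicNorm q (xc ((n * k) • P0)) = padicNorm q (xc (n • P0)) := by
  have h := norm_smul_int q hn ((D1.dvd_den_iff _).1 hd) hk
  rw [(padicNorm.int_eq_one_iff k).2 hqk, one_pow, mul_one] at h
  exact h

lemma norm_den_le {q : ℕ} [hq : Fact q.Prime] (x : ℚ) : padicNorm q (x.den : ℚ) ≤ 1 :=
  padicNorm.of_nat (p := q) x.den

/-- the quotient of the denominators -/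
lemma w_den {q : ℕ} [hq : Fact q.Prime] {x y z : ℚ}
    (h : q ∣ ((y.den : ℚ) * z.den / x.den).den) : q ∣ x.den ∧
      (q ∣ y.den → padicNorm q x ≠ padicNorm q y) ∧
      (q ∣ z.den → padicNorm q x ≠ padicNorm q z) := by
  rw [D1.dvd_den_iff, padicNorm.div, padicNorm.mul] at h
  have hx0 : (x.den : ℚ) ≠ 0 := by exact_mod_cast x.den_ne_zero
  have hy0 : (y.den : ℚ) ≠ 0 := by exact_mod_cast y.den_ne_zero
  have hz0 : (z.den : ℚ) ≠ 0 := by exact_mod_cast z.den_ne_zero
  have px : 0 < padicNorm q (x.den : ℚ) :=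
    lt_of_le_of_ne (padicNorm.nonneg _) (padicNorm.nonzero (p := q) hx0).symm
  have py : 0 < padicNorm q (y.den : ℚ) :=
    lt_of_le_of_ne (padicNorm.nonneg _) (padicNorm.nonzero (p := q) hy0).symm
  have pz : 0 < padicNorm q (z.den : ℚ) :=
    lt_of_le_of_ne (padicNorm.nonneg _) (padicNorm.nonzero (p := q) hz0).symm
  have lx := norm_den_le (q := q) x
  have ly := norm_den_le (q := q) y
  have lz := norm_den_le (q := q) z
  rw [lt_div_iff₀ px, one_mul] at h
  have hx : q ∣ x.den := by
    by_contra hcon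
    have : padicNorm q (x.den : ℚ) = 1 := (padicNorm.nat_eq_one_iff (p := q) x.den).2 hcon
    nlinarith
  have nx := norm_den hx
  refine ⟨hx, fun hy he => ?_, fun hz he => ?_⟩
  · have ny := norm_den hy
    rw [he] at nx
    have e : padicNorm q (x.den : ℚ) = padicNorm q (y.den : ℚ) := by
      have h0 : padicNorm q y ≠ 0 := by
        intro h0; rw [h0, mul_zero] at ny; exact zero_ne_one ny
      exact mul_right_cancel₀ h0 (nx.trans ny.symm)
    rw [e] at h
    nlinarith
  · have nz := norm_den hz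
    rw [he] at nx
    have e : padicNorm q (x.den : ℚ) = padicNorm q (z.den : ℚ) := by
      have h0 : padicNorm q z ≠ 0 := by
        intro h0; rw [h0, mul_zero] at nz; exact zero_ne_one nz
      exact mul_right_cancel₀ h0 (nx.trans nz.symm)
    rw [e] at h
    nlinarith

lemma v3_pp (s t : ℕ) : padicValInt 3 (3 ^ s * 5 ^ t) = s := by
  have h0 : padicValInt 3 (5 ^ t) = 0 := by
    apply padicValInt.eq_zero_of_not_dvd
    intro h
    have := Int.prime_three.dvd_of_dvd_pow h
    omega
  have h3 : padicValInt 3 (3 ^ s) = s := by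
    unfold padicValInt
    rw [Int.natAbs_pow]
    simp
  rw [padicValInt.mul (by positivity) (by positivity), h0, h3]
  simp

lemma v5_pp (s t : ℕ) : padicValInt 5 (2 * (3 ^ s * 5 ^ t)) = t := by
  have : Fact (Nat.Prime 5) := ⟨Nat.prime_five⟩
  have hp5 : Prime (5 : ℤ) := by
    have := Nat.prime_iff_prime_int.1 Nat.prime_five
    exact_mod_cast this
  have h0 : padicValInt 5 (2 * 3 ^ s) = 0 := by
    apply padicValInt.eq_zero_of_not_dvd
    intro h
    rcases hp5.dvd_or_dvd (by exact_mod_cast h : (5 : ℤ) ∣ 2 * 3 ^ s) with h | h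
    · omega
    · have := hp5.dvd_of_dvd_pow h
      omega
  have h3 : padicValInt 5 (5 ^ t) = t := by
    unfold padicValInt
    rw [Int.natAbs_pow]
    simp
  rw [← mul_assoc, padicValInt.mul (by positivity) (by positivity), h0, h3]
  simp

lemma kord_dvd_iff {n m : ℕ} {s t : ℕ} : ((3 ^ n * 5 ^ m : ℕ) : ℤ) ∣ 2 * (3 ^ s * 5 ^ t) ↔
    n ≤ s ∧ m ≤ t := by
  have : Fact (Nat.Prime 5) := ⟨Nat.prime_five⟩
  constructor
  · intro h
    have hN : (2 * (3 ^ s * 5 ^ t) : ℤ) ≠ 0 := by positivity
    constructor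
    · have h1 : ((3 : ℕ) : ℤ) ^ n ∣ 2 * (3 ^ s * 5 ^ t) :=
        dvd_trans (by push_cast; exact dvd_mul_right _ _) h
      have h2 := val_of_pow_dvd hN h1
      rwa [v3_two_mul (by positivity), v3_pp] at h2
    · have h1 : ((5 : ℕ) : ℤ) ^ m ∣ 2 * (3 ^ s * 5 ^ t) :=
        dvd_trans (by push_cast; exact dvd_mul_left _ _) h
      have h2 := val_of_pow_dvd hN h1
      rwa [v5_pp] at h2
  · rintro ⟨h1, h2⟩
    push_cast
    exact (mul_dvd_mul (pow_dvd_pow 3 h1) (pow_dvd_pow 5 h2)).mul_left _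

theorem rowComplete : RowComplete := by
  intro K Kl hK hi1 R hR a B hB ⟨i₀, hi₀⟩
  have h5 : Fact (Nat.Prime 5) := ⟨Nat.prime_five⟩
  have hZ : ∀ z : ℤ, (z : ℚ) ∈ R := fun z => hR.sup z (fun q hq h => by
    rw [Rat.den_intCast] at h
    exact absurd (Nat.dvd_one.1 h) hq.one_lt.ne')
  set j := max i₀ (padicValInt 3 B) with hj
  set v := K a ^ j with hv
  have hjv : j < v := Nat.lt_pow_self (by have := hK a; omega)
  have hBv : padicValInt 3 B ≤ v := by
    have : padicValInt 3 B ≤ j := le_max_right _ _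
    omega
  obtain ⟨b, hb⟩ : ∃ b : ℚ, b = 3 ^ v := ⟨_, rfl⟩
  have hbR : b ∈ R := by
    have := hZ (3 ^ v)
    push_cast at this
    rw [hb]
    exact this
  have hb0 : b ≠ 0 := by rw [hb]; positivity
  have hvb : padicValRat 3 b = v := by
    have h := v_pow_self 3 v
    rw [Nat.cast_ofNat] at h
    rw [hb]
    exact h
  set N2 : ℤ := 3 ^ v * 5 ^ (a + 1) with hN2
  set N3 : ℤ := 3 ^ (v * K a) * 5 ^ a with hN3
  have hN20 : N2 ≠ 0 := by positivity
  have hN30 : N3 ≠ 0 := by positivity
  have hc0 : (5 : ℚ) ^ a ≠ 0 := by positivity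
  have hB0 : (B : ℚ) ≠ 0 := by exact_mod_cast hB
  have he0 : b ^ K a ≠ 0 := pow_ne_zero _ hb0
  refine ⟨b, hbR, ⟨hb0, hB0, hc0, he0⟩, (2 * N2) • P0, (2 * N3) • P0,
    ⟨⟨N2, rfl⟩, ⟨N3, rfl⟩, ev_ne hN20, ev_ne hN30⟩, ?_, ?_, ?_⟩
  · rw [idx5]
    obtain ⟨x5, v5⟩ := val_five (k := 2 * N3) (by omega)
    rw [val_one_div, val_expr (by norm_num) hc0 x5, v5_625, v5]
    have hc5 : padicValRat 5 ((5 : ℚ) ^ a) = a := by
      have := v_pow_self 5 a
      exact_mod_cast this
    rw [hc5, hN3, v5_pp]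
    omega
  · rw [idx2, idx10]
    obtain ⟨x2, v2⟩ := val_three hN20
    obtain ⟨x3, v3⟩ := val_three (k := 5 * N3) (by omega)
    rw [val_one_div, val_expr (by norm_num) hB0 x2, v3_nine, v2, padicValRat.of_int,
      val_expr (by norm_num) hb0 x2, v3_nine, v2, val_one_div, val_expr (by norm_num) he0 x3,
      v3_nine, v3, padicValRat.pow, hvb]
    have e1 : padicValInt 3 N2 = v := by rw [hN2, v3_pp]
    have e2 : (5 * N3 : ℤ) = 3 ^ (v * K a) * 5 ^ (a + 1) := by rw [hN3]; ring
    have e3 : padicValInt 3 (5 * N3) = v * K a := by rw [e2, v3_pp]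
    rw [e1, e3]
    push_cast
    refine ⟨by omega, by omega, ?_⟩
    have : (v : ℤ) * K a = K a * v := mul_comm _ _
    rw [this]
    omega
  · apply denDvd3_complete hZ
    apply hR.sup
    intro q hq hqw
    have hqF : Fact q.Prime := ⟨hq⟩
    rw [idx5] at hqw
    obtain ⟨hx, hy, hz⟩ := w_den hqw
    have e5 : (5 * (2 * N3) : ℤ) = 2 * (3 ^ (v * K a) * 5 ^ (a + 1)) := by rw [hN3]; ring
    refine ⟨⟨hq, v * K a, a + 1, ?_⟩, ?_⟩
    · rw [e5, ← mul_assoc] at hx
      exact hx
    · rintro ⟨-, a', i', hkl, ho, -⟩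
      have h15 : 15 ∣ kord K a' i' := by
        unfold kord
        have h1 : 3 ∣ 3 ^ (K a' ^ i') := dvd_pow_self 3 (by
          have := hK a'
          positivity)
        have h2 : 5 ∣ 5 ^ (a' + 1) := dvd_pow_self 5 (by omega)
        exact Nat.mul_dvd_mul h1 h2
      obtain ⟨hq3, hq5⟩ := killer_ne ho h15
      have hd : ((kord K a' i' : ℕ) : ℤ) ∣ 5 * (2 * N3) := (ho.2 _).1 (Or.inr hx)
      rw [e5] at hd
      unfold kord at hd
      rw [kord_dvd_iff] at hd
      obtain ⟨hd1, hd2⟩ := hd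
      rcases Nat.lt_or_ge a' a with ha | ha
      · -- the killer divides the third denominator
        have hd3 : Dv q (2 * N3) := by
          rw [ho.2]
          unfold kord
          rw [hN3, kord_dvd_iff]
          exact ⟨hd1, by omega⟩
        have hd4 : q ∣ (xc ((2 * N3) • P0)).den := by
          rcases hd3 with h | h
          · omega
          · exact h
        refine hz hd4 ?_
        have := norm_eq_of_mul (q := q) (n := 2 * N3) (k := 5) (by omega) (by norm_num) (by
          intro h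
          have h6 : q ∣ 5 := by exact_mod_cast h
          exact hq5 ((Nat.prime_dvd_prime_iff_eq hq Nat.prime_five).1 h6)) hd4
        rw [mul_comm] at this
        exact this
      · have haa : a' = a := by omega
        subst haa
        have hii : i' < i₀ := by
          by_contra hcon
          exact hi₀ i' (not_lt.1 hcon) hkl
        have hd3 : Dv q (2 * N2) := by
          rw [ho.2]
          unfold kord
          rw [hN2, kord_dvd_iff]
          refine ⟨?_, le_rfl⟩
          exact Nat.pow_le_pow_right (by have := hK a'; omega)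
            (hii.le.trans (le_max_left _ _))
        have hd4 : q ∣ (xc ((2 * N2) • P0)).den := by
          rcases hd3 with h | h
          · omega
          · exact h
        refine hy hd4 ?_
        have hvK : v ≤ v * K a' := Nat.le_mul_of_pos_right _ (by have := hK a'; omega)
        have e6 : (5 * (2 * N3) : ℤ) = (2 * N2) * 3 ^ (v * K a' - v) := by
          rw [e5, hN2]
          have : (3 : ℤ) ^ (v * K a') = 3 ^ v * 3 ^ (v * K a' - v) := by
            rw [← pow_add]; congr 1; omega
          rw [this]; ring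
        rw [e6]
        refine norm_eq_of_mul (q := q) (n := 2 * N2) (by omega) (by positivity) ?_ hd4
        intro h
        have h6 : q ∣ 3 ^ (v * K a' - v) := by
          have : (q : ℤ) ∣ ((3 ^ (v * K a' - v) : ℕ) : ℤ) := by
            push_cast; exact h
          exact Int.natCast_dvd_natCast.1 this
        exact hq3 ((Nat.prime_dvd_prime_iff_eq hq Nat.prime_three).1 (hq.dvd_of_dvd_pow h6))

end Vale.Agent.P027.H123
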