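import Vale.Agent.P027.H123.Defs
import Vale.Agent.P027.R4.H849.CalP
import Vale.Agent.P027.R2.H250.IntP

set_option linter.all false

/-! The formula is positive existential. -/

namespace Vale.Agent.P027.H123

open MvPolynomial Vale.Agent.P345 Vale.Agent.P027 Vale.Agent.P027.HT Vale.Agent.P027.D1

variable {C : Set ℚ → Prop}

theorem rdio_denDvd3 (hC : ∀ R, C R → (0 : ℚ) ∈ R) {f g k : (ℕ → ℚ) → ℚ} (hf : DioFn f)
    (hg : DioFn g) (hk : DioFn k) : RDio C (fun R v => DenDvd3 R (f v) (g v) (k v)) := by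
  unfold DenDvd3
  apply RDio.exR hC
  apply RDio.exR hC
  apply RDio.exR hC
  apply RDio.exR hC
  apply RDio.exR hC
  apply RDio.exR hC
  apply RDio.exR hC
  apply RDio.exR hC
  apply RDio.exR hC
  apply RDio.exR hC
  apply RDio.exR hC
  apply RDio.exR hC
  apply RDio.exR hC
  have h1 : Dio (fun v => f (tl (tl (tl (tl (tl (tl (tl (tl (tl (tl (tl (tl (tl v))))))))))))) *
      v 11 = v 12) :=
    Dio.eq (hf.tl.tl.tl.tl.tl.tl.tl.tl.tl.tl.tl.tl.tl.mul (DioFn.var 11)) (DioFn.var 12)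
  have h2 : Dio (fun v => v 10 * v 12 + v 9 * v 11 = 1) :=
    Dio.eq (((DioFn.var 10).mul (DioFn.var 12)).add ((DioFn.var 9).mul (DioFn.var 11)))
      (by simpa using DioFn.int 1)
  have h3 : Dio (fun v => g (tl (tl (tl (tl (tl (tl (tl (tl (tl (tl (tl (tl (tl v))))))))))))) *
      v 7 = v 8) :=
    Dio.eq (hg.tl.tl.tl.tl.tl.tl.tl.tl.tl.tl.tl.tl.tl.mul (DioFn.var 7)) (DioFn.var 8)
  have h4 : Dio (fun v => v 6 * v 8 + v 5 * v 7 = 1) :=
    Dio.eq (((DioFn.var 6).mul (DioFn.var 8)).add ((DioFn.var 5).mul (DioFn.var 7)))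
      (by simpa using DioFn.int 1)
  have h5 : Dio (fun v => k (tl (tl (tl (tl (tl (tl (tl (tl (tl (tl (tl (tl (tl v))))))))))))) *
      v 3 = v 4) :=
    Dio.eq (hk.tl.tl.tl.tl.tl.tl.tl.tl.tl.tl.tl.tl.tl.mul (DioFn.var 3)) (DioFn.var 4)
  have h6 : Dio (fun v => v 2 * v 4 + v 1 * v 3 = 1) :=
    Dio.eq (((DioFn.var 2).mul (DioFn.var 4)).add ((DioFn.var 1).mul (DioFn.var 3)))
      (by simpa using DioFn.int 1)
  have h7 : Dio (fun v => v 7 * v 3 = v 0 * v 11) :=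
    Dio.eq ((DioFn.var 7).mul (DioFn.var 3)) ((DioFn.var 0).mul (DioFn.var 11))
  exact RDio.of_dio hC (h1.and (h2.and (h3.and (h4.and (h5.and (h6.and h7))))))

theorem rdio_frm (hC : ∀ R, C R → (0 : ℚ) ∈ R) :
    RDio C (fun R v => Frm R (v 0) (v 1) (v 2) (v 3)) := by
  unfold Frm
  have z : DioFn (fun _ => (0 : ℚ)) := by simpa using DioFn.int 0
  have ne : ∀ i : ℕ, Dio (fun v => v i ≠ 0) := fun i => Dio.ne (DioFn.var i) z
  refine (RDio.of_dio hC ((ne 2).and ((ne 1).and ((ne 0).and (ne 3))))).and ?_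
  apply RDio.exP hC
  apply RDio.exP hC
  have p3 : DPt (fun v => dec (v 0) (v 1)) := DPt.dec (DioFn.var 0) (DioFn.var 1)
  have p2 : DPt (fun v => dec (v 2) (v 3)) := DPt.dec (DioFn.var 2) (DioFn.var 3)
  have c0 : DioFn (fun v => v 4) := DioFn.var 4
  have cB : DioFn (fun v => v 5) := DioFn.var 5
  have cb : DioFn (fun v => v 6) := DioFn.var 6
  have ce : DioFn (fun v => v 7) := DioFn.var 7
  have i5 : ∀ {f : (ℕ → ℚ) → ℚ}, DioFn f → Dio (fun v => 0 ≤ padicValRat 5 (f v)) :=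
    fun hf => T2.dio_intp Nat.prime_five hf
  have i3 : ∀ {f : (ℕ → ℚ) → ℚ}, DioFn f → Dio (fun v => 0 ≤ padicValRat 3 (f v)) :=
    fun hf => T2.dio_intp Nat.prime_three hf
  refine (RDio.of_dio hC ((dio_ev evPt_iff p2).and ((dio_ev evPt_iff p3).and
    ((dio_pt_ne_zero p2).and (dio_pt_ne_zero p3))))).and
    ((RDio.of_dio hC ((i5 ?_).and (i5 ?_))).and
      ((RDio.of_dio hC ((i3 ?_).and ((i3 ?_).and (i3 ?_)))).and
        (rdio_denDvd3 hC (p3.nsmul 5).xc p2.xc p3.xc)))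
  · exact (lit_fn 625).mul ((c0.pow 2).mul (p3.nsmul 5).xc)
  · exact one_fn.div ((lit_fn 625).mul ((c0.pow 2).mul (p3.nsmul 5).xc))
  · exact one_fn.div ((lit_fn 9).mul ((cB.pow 2).mul (p2.nsmul 2).xc))
  · exact (lit_fn 9).mul ((cb.pow 2).mul (p2.nsmul 2).xc)
  · exact one_fn.div ((lit_fn 9).mul ((ce.pow 2).mul (p3.nsmul 10).xc))

end Vale.Agent.P027.H123
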