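import Vale.Agent.P027.H123.Prim
import Vale.Agent.P027.H123.Main2
import Vale.Agent.P027.H123.Rd
import Vale.Agent.P027.H123.Comp
import Vale.Agent.P027.H123.Cnt

set_option linter.all false

/-! Assembly. -/

namespace Vale.Agent.P027.H123

open MvPolynomial Filter
open Vale.Agent.P345 Vale.Agent.P027 Vale.Agent.P027.HT Vale.Agent.P027.D1
  Vale.Agent.P027.R4.H297
open Nat.Partrec (Code)
open Nat.Partrec.Code (evaln eval)

/-- decidable approximations of a recursively enumerable set -/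
theorem re_approx {A : Set ℕ} (hA : REPred (fun a => a ∈ A)) :
    ∃ Ra : ℕ → ℕ → Prop, PrimrecRel Ra ∧ (∀ a i j, i ≤ j → Ra a i → Ra a j) ∧
      ∀ a, a ∈ A ↔ ∃ i, Ra a i := by
  have h1 : Partrec (fun a : ℕ => Part.assert (a ∈ A) fun _ => Part.some ()) := hA
  have h2 : Partrec (fun a : ℕ => (Part.assert (a ∈ A) fun _ => Part.some ()).map
      (fun _ => (0 : ℕ))) := h1.map (Computable.const 0).to₂
  obtain ⟨c, hc⟩ := Nat.Partrec.Code.exists_code.1 (Partrec.nat_iff.1 h2)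
  refine ⟨fun a i => (evaln i c a).isSome = true, ?_, ?_, fun a => ?_⟩
  · have h3 : Primrec (fun u : ℕ × ℕ => evaln u.2 c u.1) :=
      Nat.Partrec.Code.primrec_evaln.comp (Primrec.pair (Primrec.pair Primrec.snd
        (Primrec.const c)) Primrec.fst)
    have h4 : Primrec (fun u : ℕ × ℕ => (evaln u.2 c u.1).isSome) := Primrec.option_isSome.comp h3
    have h5 : PrimrecPred (fun u : ℕ × ℕ => (evaln u.2 c u.1).isSome = true) :=
      Primrec.eq.comp h4 (Primrec.const true)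
    exact h5
  · intro a i j hij h
    rw [Option.isSome_iff_exists] at h ⊢
    obtain ⟨x, hx⟩ := h
    exact ⟨x, Nat.Partrec.Code.evaln_mono hij hx⟩
  · have h6 : a ∈ A ↔ (eval c a).Dom := by
      rw [hc]
      constructor
      · intro h
        rw [Part.map_Dom]
        exact ⟨h, trivial⟩
      · intro h
        rw [Part.map_Dom] at h
        exact h.1
    rw [h6, Part.dom_iff_mem]
    constructor
    · rintro ⟨y, hy⟩
      obtain ⟨k, hk⟩ := Nat.Partrec.Code.evaln_complete.1 hy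
      exact ⟨k, Option.isSome_iff_exists.2 ⟨y, hk⟩⟩
    · rintro ⟨k, hk⟩
      obtain ⟨y, hy⟩ := Option.isSome_iff_exists.1 hk
      exact ⟨y, Nat.Partrec.Code.evaln_complete.2 ⟨k, hy⟩⟩

/-- decidable lower bounds for a computable unbounded function -/
theorem fn_approx {g : ℕ → ℕ} (hg : Computable g) (hu : ∀ M, ∃ n, M ≤ g n) :
    ∃ Ok : ℕ → ℕ → Prop, PrimrecRel Ok ∧ (∀ a i j, i ≤ j → Ok a i → Ok a j) ∧
      (∀ a, ∃ i, Ok a i) ∧ ∀ a i, Ok a i → ∃ m ≤ i, 4 * (a + 1) ≤ g m := by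
  obtain ⟨c, hc⟩ := Nat.Partrec.Code.exists_code.1 (Partrec.nat_iff.1 hg.partrec)
  have hval : ∀ m x, x ∈ eval c m ↔ x = g m := by
    intro m x
    rw [hc]
    simp
  refine ⟨fun a i => ∃ m < i + 1, 4 * (a + 1) ≤ (evaln i c m).getD 0, ?_, ?_, ?_, ?_⟩
  · have h3 : Primrec (fun u : ℕ × ℕ × ℕ => evaln u.2.2 c u.1) :=
      Nat.Partrec.Code.primrec_evaln.comp (Primrec.pair (Primrec.pair
        (Primrec.snd.comp Primrec.snd) (Primrec.const c)) Primrec.fst)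
    have h4 : Primrec (fun u : ℕ × ℕ × ℕ => (evaln u.2.2 c u.1).getD 0) :=
      Primrec.option_getD.comp h3 (Primrec.const 0)
    have h5 : PrimrecPred (fun u : ℕ × ℕ × ℕ => 4 * (u.2.1 + 1) ≤ (evaln u.2.2 c u.1).getD 0) :=
      Primrec.nat_le.comp (Primrec.nat_mul.comp (Primrec.const 4)
        (Primrec.succ.comp (Primrec.fst.comp Primrec.snd))) h4
    exact ex_lt (P := fun m (u : ℕ × ℕ) => 4 * (u.1 + 1) ≤ (evaln u.2 c m).getD 0) h5
      (Primrec.succ.comp Primrec.snd)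
  · rintro a i j hij ⟨m, hm, h⟩
    refine ⟨m, by omega, ?_⟩
    rcases hx : evaln i c m with _ | x
    · rw [hx, Option.getD_none] at h
      omega
    · have h1 : x ∈ evaln j c m := Nat.Partrec.Code.evaln_mono hij (by rw [hx]; rfl)
      rw [Option.mem_def] at h1
      rw [hx] at h
      rw [h1]
      exact h
  · intro a
    obtain ⟨n, hn⟩ := hu (4 * (a + 1))
    obtain ⟨k, hk⟩ := Nat.Partrec.Code.evaln_complete.1 ((hval n (g n)).2 rfl)
    refine ⟨max k n, n, by omega, ?_⟩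
    have h1 : g n ∈ evaln (max k n) c n := Nat.Partrec.Code.evaln_mono (le_max_left _ _) hk
    rw [Option.mem_def] at h1
    rw [h1]
    exact hn
  · rintro a i ⟨m, hm, h⟩
    refine ⟨m, by omega, ?_⟩
    rcases hx : evaln i c m with _ | x
    · rw [hx, Option.getD_none] at h
      omega
    · have h1 : x ∈ eval c m := Nat.Partrec.Code.evaln_sound (k := i) (by rw [hx]; rfl)
      rw [hval] at h1
      rw [hx] at h
      subst h1
      exact h

/-- the least index of a primitive recursive relation is computable -/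
theorem computable_least {Ok : ℕ → ℕ → Prop} (h : PrimrecRel Ok) (hex : ∀ a, ∃ i, Ok a i) :
    ∃ I : ℕ → ℕ, Computable I ∧ ∀ a, Ok a (I a) := by
  classical
  obtain ⟨hd, hp⟩ := h
  let f : ℕ → ℕ → Bool := fun a i => decide (Ok a i)
  have h1 : Primrec₂ f := by
    refine hp.of_eq (fun u => ?_)
    simp only [f]
    congr
  have h2 : Partrec₂ (fun a => (f a : ℕ →. Bool)) := h1.to_comp.partrec₂
  have h3 := Partrec.rfind h2
  have h4 : ∀ a, ∃ n, n ∈ Nat.rfind (f a : ℕ →. Bool) := by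
    intro a
    obtain ⟨i, hi⟩ := hex a
    obtain ⟨n, hn, -⟩ := Nat.rfind_min' (p := f a) (m := i) (by simpa [f] using hi)
    exact ⟨n, hn⟩
  choose I hI using h4
  refine ⟨I, ?_, fun a => ?_⟩
  · refine Partrec.of_eq h3 (fun a => ?_)
    exact Part.eq_some_iff.2 (hI a)
  · have := Nat.rfind_spec (hI a)
    simpa [f] using this

/-- the formula as a polynomial -/
theorem exists_poly : ∃ (n : ℕ) (G : MvPolynomial (Fin 3 ⊕ Fin (n + 1)) ℤ), ∀ R : Set ℚ,
    (∀ z : ℤ, (z : ℚ) ∈ R) → ∀ (c B : ℚ) (K : ℕ),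
    ((∃ b ∈ R, Frm R c B b (b ^ K)) ↔
      ∃ x : Fin (n + 1) → ℚ, (∀ i, x i ∈ R) ∧
        aeval (Sum.elim ![c, B, x 0 ^ K] x) G = 0) := by
  have hR : RDio (fun R => ∀ z : ℤ, (z : ℚ) ∈ R)
      (fun R v => Frm R (v 0) (v 1) (v 2) (v 3)) :=
    rdio_frm (fun R hR => by simpa using hR 0)
  obtain ⟨m, r, F, hF⟩ := rowC2 (fun R => ∀ z : ℤ, (z : ℚ) ∈ R)
    (fun R hR => by simpa using hR 0) (k := 4)
    (S := fun R x => Frm R (x 0) (x 1) (x 2) (x 3)) hR
  let φ : Fin 4 ⊕ Fin m ⊕ Fin r → Fin 3 ⊕ Fin (m + r + 1) :=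
    Sum.elim ![Sum.inl 0, Sum.inl 1, Sum.inr 0, Sum.inl 2]
      (Sum.elim (fun i => Sum.inr (Fin.castAdd r i).succ) (fun j => Sum.inr (Fin.natAdd m j).succ))
  refine ⟨m + r, rename φ F, fun R hZ c B K => ?_⟩
  have key : ∀ (b : ℚ) (u : Fin m → ℚ) (y : Fin r → ℚ) (x : Fin (m + r + 1) → ℚ), x 0 = b →
      (∀ i, x (Fin.castAdd r i).succ = u i) → (∀ j, x (Fin.natAdd m j).succ = y j) →
      Sum.elim ![c, B, x 0 ^ K] x ∘ φ = Sum.elim ![c, B, b, b ^ K] (Sum.elim u y) := by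
    intro b u y x hb hu hy
    funext i
    rcases i with i | i | j
    · fin_cases i
      · rfl
      · rfl
      · exact hb
      · show x 0 ^ K = b ^ K
        rw [hb]
    · exact hu i
    · exact hy j
  constructor
  · rintro ⟨b, hb, hfr⟩
    obtain ⟨u, y, hu, hy, h⟩ := (hF R R hZ hZ ![c, B, b, b ^ K]).1 hfr
    refine ⟨Fin.cons b (Fin.append u y), ?_, ?_⟩
    · intro i
      refine Fin.cases ?_ (fun i => ?_) i
      · exact hb
      · rw [Fin.cons_succ]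
        refine Fin.addCases (fun i => ?_) (fun j => ?_) i
        · rw [Fin.append_left]; exact hu i
        · rw [Fin.append_right]; exact hy j
    · rw [aeval_rename, key b u y]
      · exact h
      · rfl
      · intro i
        rw [Fin.cons_succ, Fin.append_left]
      · intro j
        rw [Fin.cons_succ, Fin.append_right]
  · rintro ⟨x, hx, h⟩
    refine ⟨x 0, hx 0, (hF R R hZ hZ ![c, B, x 0, x 0 ^ K]).2 ⟨fun i => x (Fin.castAdd r i).succ,
      fun j => x (Fin.natAdd m j).succ, fun i => hx _, fun j => hx _, ?_⟩⟩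
    rw [aeval_rename, key (x 0) _ _ x rfl (fun i => rfl) (fun j => rfl)] at h
    exact h

lemma Rg.int {T : Set ℕ} {R : Set ℚ} (hR : Rg T R) (z : ℤ) : (z : ℚ) ∈ R :=
  hR.sup z (fun q hq h => by
    rw [Rat.den_intCast] at h
    exact absurd (Nat.dvd_one.1 h) hq.one_lt.ne')

lemma KT_sub_DD {K : ℕ → ℕ} {Kl : ℕ → ℕ → Prop} : KT K Kl ⊆ DD := by
  rintro q ⟨hq, a, i, -, ho, -⟩
  refine ⟨hq, K a ^ i, a + 1, ?_⟩
  have h1 : ((kord K a i : ℕ) : ℤ) ∣ 2 * (3 ^ (K a ^ i) * 5 ^ (a + 1)) := by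
    unfold kord
    push_cast
    exact dvd_mul_left _ _
  have h2 := (ho.2 _).2 h1
  rw [← mul_assoc] at h2
  rcases h2 with h2 | h2
  · exfalso
    have : (2 * 3 ^ (K a ^ i) * 5 ^ (a + 1) : ℤ) ≠ 0 := by positivity
    exact this h2
  · exact h2

lemma v3_self : padicValInt 3 3 = 1 := by
  have := padicValInt.self (p := 3) (by norm_num)
  exact_mod_cast this

lemma v3_pow (n : ℕ) : padicValInt 3 (3 ^ n) = n := by
  have h := v3_pp n 0
  simpa using h

/-- first part -/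
theorem part1 {A : Set ℕ} (hA : REPred (fun a => a ∈ A)) {ε : ℝ} (hε : 0 < ε) :
    ∃ (c : ℕ) (T : Set ℕ), T ⊆ DD ∧ ComputablePred (fun q => q ∈ T) ∧
      (∀ᶠ n : ℕ in atTop, ((T ∩ Set.Iic n).ncard : ℝ) ≤ ε * Real.log (Real.log n)) ∧
      ∀ R : Set ℚ, Rg T R → ∀ a : ℕ,
        (a ∈ A ↔ ∃ b ∈ R, Frm R (5 ^ a) 3 b (b ^ (2 ^ (c * ((a + 1) * (a + 2)))))) := by
  obtain ⟨Ra, hRa, hmono, hRA⟩ := re_approx hA
  obtain ⟨N0, hN0⟩ := rowPrim
  obtain ⟨c₀, hc₀⟩ := count1 hε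
  set c := max c₀ (N0 + 1) with hc
  have hc1 : 1 ≤ c := by omega
  have hcN : N0 < c := by omega
  let Kl : ℕ → ℕ → Prop := fun a i => 1 ≤ i ∧ ¬ Ra a i
  have hK : ∀ a, 2 ≤ Kc c a := fun a => (Kc_ge hc1 a).1
  have hKl : PrimrecRel Kl := by
    have h1 : PrimrecPred (fun u : ℕ × ℕ => 1 ≤ u.2) :=
      Primrec.nat_le.comp (Primrec.const 1) Primrec.snd
    have h2 : PrimrecPred (fun u : ℕ × ℕ => ¬ Ra u.1 u.2) := hRa.not
    exact h1.and h2
  have hKp : Primrec (Kc c) := by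
    unfold Kc
    exact pr_pow (Primrec.const 2) (Primrec.nat_mul.comp (Primrec.const c)
      (Primrec.nat_mul.comp Primrec.succ (Primrec.succ.comp Primrec.succ)))
  have hex : ∀ a i, Kl a i → ∃ q : ℕ, q.Prime ∧ Ord q (kord (Kc c) a i) := by
    intro a i hkl
    have h1 : 1 ≤ Kc c a ^ i := Nat.one_le_pow _ _ (by have := hK a; omega)
    refine hN0 _ _ h1 (by omega) ?_
    have h2 : c < Kc c a := by
      unfold Kc
      have h3 : c ≤ c * ((a + 1) * (a + 2)) := Nat.le_mul_of_pos_right _ (by positivity)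
      exact lt_of_le_of_lt h3 (Nat.lt_pow_self (by norm_num))
    have h4 : Kc c a ^ 1 ≤ Kc c a ^ i := Nat.pow_le_pow_right (by omega) hkl.1
    rw [pow_one] at h4
    have h5 : Kc c a ^ i < 3 ^ (Kc c a ^ i) := Nat.lt_pow_self (by norm_num)
    have h6 : 3 ^ (Kc c a ^ i) ≤ 3 ^ (Kc c a ^ i) * 5 ^ (a + 1) :=
      Nat.le_mul_of_pos_right _ (by positivity)
    omega
  refine ⟨c, KT (Kc c) Kl, KT_sub_DD, rowComp _ _ hKp hKl hK,
    hc₀ c (le_max_left _ _) hc1 Kl (fun a i h => h.1), fun R hR a => ?_⟩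
  constructor
  · intro ha
    obtain ⟨i₀, hi₀⟩ := (hRA a).1 ha
    have := rowComplete (Kc c) Kl hK (fun a i h => h.1) R hR a 3 (by norm_num)
      ⟨i₀, fun i hi h => h.2 (hmono a i₀ i hi hi₀)⟩
    simpa only [Int.cast_ofNat, Kc] using this
  · rintro ⟨b, -, hfr⟩
    by_contra ha
    have hn : ∀ i, ¬ Ra a i := fun i h => ha ((hRA a).2 ⟨i, h⟩)
    refine rowSound (Kc c) Kl hK hex R hR a 3 (by rw [v3_self]) (fun i hi => ⟨?_, hn i⟩) b ?_
    · rw [v3_self] at hi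
      by_contra hcon
      have : i = 0 := by omega
      rw [this, pow_zero] at hi
      omega
    · simpa only [Int.cast_ofNat, Kc] using hfr

/-- second part -/
theorem part2 {A : Set ℕ} (hA : REPred (fun a => a ∈ A)) {g : ℕ → ℕ} (hg : Computable g)
    (hgm : Monotone g) (hgu : ∀ M, ∃ n, M ≤ g n) :
    ∃ (B : ℕ → ℕ) (T : Set ℕ), Computable B ∧ T ⊆ DD ∧ ComputablePred (fun q => q ∈ T) ∧
      (∀ᶠ n : ℕ in atTop, ((T ∩ Set.Iic n).ncard : ℝ) ≤ g n * Real.log (Real.log n)) ∧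
      ∀ R : Set ℚ, Rg T R → ∀ a : ℕ, (a ∈ A ↔ ∃ b ∈ R, Frm R (5 ^ a) (B a) b (b ^ 2)) := by
  obtain ⟨Ra, hRa, hmono, hRA⟩ := re_approx hA
  obtain ⟨N0, hN0⟩ := rowPrim
  obtain ⟨Ok, hOk, hOm, hOe, hOg⟩ := fn_approx hg hgu
  let Ok' : ℕ → ℕ → Prop := fun a i => N0 + 1 ≤ i ∧ Ok a i
  have hOk' : PrimrecRel Ok' := by
    have h1 : PrimrecPred (fun u : ℕ × ℕ => N0 + 1 ≤ u.2) :=
      Primrec.nat_le.comp (Primrec.const (N0 + 1)) Primrec.snd
    have h2 : PrimrecPred (fun u : ℕ × ℕ => Ok u.1 u.2) := hOk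
    exact h1.and h2
  obtain ⟨I, hI, hIO⟩ := computable_least hOk' (fun a => by
    obtain ⟨i, hi⟩ := hOe a
    exact ⟨max i (N0 + 1), by omega, hOm a i _ (le_max_left _ _) hi⟩)
  let Kl : ℕ → ℕ → Prop := fun a i => Ok' a i ∧ ¬ Ra a i
  have hKl : PrimrecRel Kl := by
    have h1 : PrimrecPred (fun u : ℕ × ℕ => Ok' u.1 u.2) := hOk'
    have h2 : PrimrecPred (fun u : ℕ × ℕ => ¬ Ra u.1 u.2) := hRa.not
    exact h1.and h2
  have hex : ∀ a i, Kl a i → ∃ q : ℕ, q.Prime ∧ Ord q (kord (fun _ => 2) a i) := by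
    intro a i hkl
    have h1 : 1 ≤ 2 ^ i := Nat.one_le_two_pow
    refine hN0 _ _ h1 (by omega) ?_
    have h2 : N0 + 1 ≤ i := hkl.1.1
    have h3 : i < 2 ^ i := Nat.lt_pow_self (by norm_num)
    have h5 : 2 ^ i < 3 ^ (2 ^ i) := Nat.lt_pow_self (by norm_num)
    have h6 : 3 ^ (2 ^ i) ≤ 3 ^ (2 ^ i) * 5 ^ (a + 1) :=
      Nat.le_mul_of_pos_right _ (by positivity)
    show N0 < 3 ^ (2 ^ i) * 5 ^ (a + 1)
    omega
  have hpow : Computable (fun a => 3 ^ (2 ^ (I a))) := by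
    have h1 : Primrec (fun i : ℕ => 3 ^ (2 ^ i)) :=
      pr_pow (Primrec.const 3) (pr_pow (Primrec.const 2) Primrec.id)
    exact h1.to_comp.comp hI
  refine ⟨fun a => 3 ^ (2 ^ (I a)), KT (fun _ => 2) Kl, hpow, KT_sub_DD,
    rowComp _ _ (Primrec.const 2) hKl (fun _ => le_rfl),
    count2 hgm (fun a i h => ⟨?_, hOg a i h.1.2⟩), fun R hR a => ?_⟩
  · have := h.1.1
    omega
  have e : (((3 ^ (2 ^ (I a)) : ℕ) : ℤ) : ℚ) = ((3 ^ (2 ^ (I a)) : ℕ) : ℚ) := by push_cast; ring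
  constructor
  · intro ha
    obtain ⟨i₀, hi₀⟩ := (hRA a).1 ha
    have := rowComplete (fun _ => 2) Kl (fun _ => le_rfl) (fun a i h => by
      have := h.1.1
      omega) R hR a ((3 ^ (2 ^ (I a)) : ℕ) : ℤ) (by positivity)
      ⟨i₀, fun i hi h => h.2 (hmono a i₀ i hi hi₀)⟩
    rw [e] at this
    exact this
  · rintro ⟨b, -, hfr⟩
    by_contra ha
    have hn : ∀ i, ¬ Ra a i := fun i h => ha ((hRA a).2 ⟨i, h⟩)
    have hv : padicValInt 3 (((3 ^ (2 ^ (I a)) : ℕ) : ℤ)) = 2 ^ (I a) := by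
      push_cast
      exact v3_pow _
    refine rowSound (fun _ => 2) Kl (fun _ => le_rfl) hex R hR a ((3 ^ (2 ^ (I a)) : ℕ) : ℤ)
      (by rw [hv]; exact Nat.one_le_two_pow) (fun i hi => ⟨?_, hn i⟩) b ?_
    · rw [hv] at hi
      have hIi : I a < i := (Nat.pow_lt_pow_iff_right (by norm_num)).1 hi
      obtain ⟨h1, h2⟩ := hIO a
      exact ⟨by omega, hOm a _ _ hIi.le h2⟩
    · rw [e]
      exact hfr

end Vale.Agent.P027.H123
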