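import Vale.Agent.P027.R4.H788.Arith

set_option linter.all false

/-! Definitions for the theorem on extremely sparse sets of omitted primes (problem P027). -/

namespace Vale.Agent.P027.H123

open MvPolynomial Vale.Agent.P345 Vale.Agent.P027 Vale.Agent.P027.HT Vale.Agent.P027.D1

/-- the denominator of `x` divides the product of those of `y` and `z`, in `R` -/
def DenDvd3 (R : Set ℚ) (x y z : ℚ) : Prop :=
  ∃ a ∈ R, ∃ d ∈ R, ∃ u ∈ R, ∃ v ∈ R, ∃ a' ∈ R, ∃ d' ∈ R, ∃ u' ∈ R, ∃ v' ∈ R,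
    ∃ a'' ∈ R, ∃ d'' ∈ R, ∃ u'' ∈ R, ∃ v'' ∈ R, ∃ w ∈ R,
    x * d = a ∧ u * a + v * d = 1 ∧ y * d' = a' ∧ u' * a' + v' * d' = 1 ∧
    z * d'' = a'' ∧ u'' * a'' + v'' * d'' = 1 ∧ d' * d'' = w * d

/-- the formula: the index of `5 V3` has five-adic valuation one more than that of `c`, three-adic
valuation at least that of `e`, the index of `V2` has three-adic valuation between those of `B` and
`b`, and the omitted primes that divide the denominator for `5 V3` divide that for `V2` or `V3` -/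
def Frm (R : Set ℚ) (c B b e : ℚ) : Prop :=
  (b ≠ 0 ∧ B ≠ 0 ∧ c ≠ 0 ∧ e ≠ 0) ∧ ∃ V2 V3 : EC.Point, (EvPt V2 ∧ EvPt V3 ∧ V2 ≠ 0 ∧ V3 ≠ 0) ∧
    (0 ≤ padicValRat 5 (625 * (c ^ 2 * xc (5 • V3))) ∧
      0 ≤ padicValRat 5 (1 / (625 * (c ^ 2 * xc (5 • V3))))) ∧
    (0 ≤ padicValRat 3 (1 / (9 * (B ^ 2 * xc (2 • V2)))) ∧
      0 ≤ padicValRat 3 (9 * (b ^ 2 * xc (2 • V2))) ∧
      0 ≤ padicValRat 3 (1 / (9 * (e ^ 2 * xc (10 • V3))))) ∧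
    DenDvd3 R (xc (5 • V3)) (xc V2) (xc V3)

/-- the orders of the omitted primes -/
def kord (K : ℕ → ℕ) (a i : ℕ) : ℕ := 3 ^ (K a ^ i) * 5 ^ (a + 1)

/-- the set of the omitted primes -/
def KT (K : ℕ → ℕ) (Kl : ℕ → ℕ → Prop) : Set ℕ :=
  {q | q.Prime ∧ ∃ a i, Kl a i ∧ Ord q (kord K a i) ∧ ∀ q' < q, q'.Prime → ¬ Ord q' (kord K a i)}

/-- the primes that divide the denominator of the coordinate of some `2 3^s 5^t P0` -/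
def DD : Set ℕ := {q | q.Prime ∧ ∃ s t : ℕ, q ∣ (xc ((2 * 3 ^ s * 5 ^ t : ℤ) • P0)).den}

/-- the class of the sets `R` -/
structure Rg (T : Set ℕ) (R : Set ℚ) : Prop where
  sup : ∀ t : ℚ, (∀ q : ℕ, q.Prime → q ∣ t.den → q ∈ DD ∧ q ∉ T) → t ∈ R
  sub : ∀ t ∈ R, ∀ q ∈ T, ¬ q ∣ t.den

/-- primitive primes -/
def RowPrim : Prop := ∃ N0 : ℕ, ∀ s t : ℕ, 1 ≤ s → 1 ≤ t → N0 < 3 ^ s * 5 ^ t →
  ∃ q : ℕ, q.Prime ∧ Ord q (3 ^ s * 5 ^ t)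

/-- the set of the omitted primes is computable -/
def RowComp : Prop := ∀ (K : ℕ → ℕ) (Kl : ℕ → ℕ → Prop), Primrec K → PrimrecRel Kl →
  (∀ a, 2 ≤ K a) → ComputablePred (fun q => q ∈ KT K Kl)

/-- the formula has no solution -/
def RowSound : Prop := ∀ (K : ℕ → ℕ) (Kl : ℕ → ℕ → Prop), (∀ a, 2 ≤ K a) →
  (∀ a i, Kl a i → ∃ q : ℕ, q.Prime ∧ Ord q (kord K a i)) → ∀ R : Set ℚ, Rg (KT K Kl) R →
  ∀ (a : ℕ) (B : ℤ), 1 ≤ padicValInt 3 B →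
    (∀ i, padicValInt 3 B < K a ^ i → Kl a i) → ∀ b : ℚ, ¬ Frm R (5 ^ a) B b (b ^ K a)

/-- the formula has a solution -/
def RowComplete : Prop := ∀ (K : ℕ → ℕ) (Kl : ℕ → ℕ → Prop), (∀ a, 2 ≤ K a) →
  (∀ a i, Kl a i → 1 ≤ i) → ∀ R : Set ℚ, Rg (KT K Kl) R →
  ∀ (a : ℕ) (B : ℤ), B ≠ 0 → (∃ i₀, ∀ i, i₀ ≤ i → ¬ Kl a i) →
    ∃ b ∈ R, Frm R (5 ^ a) B b (b ^ K a)

end Vale.Agent.P027.H123
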