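import Vale.Agent.P027.H123.Defs
import Vale.Agent.P027.R4.H815.Prim

set_option linter.all false

/-! Primitive primes for the indices `3 ^ s 5 ^ t`. -/

namespace Vale.Agent.P027.H123

open MvPolynomial Vale.Agent.P345 Vale.Agent.P027 Vale.Agent.P027.HT Vale.Agent.P027.D1
  Vale.Agent.P027.R4.H815

/-- a prime power that divides a denominator divides the earlier one up to a factor -/
theorem pow_dvd_of_old {r : ℕ} (hr : r.Prime) {n : ℤ} {x x' : ℚ} {c d c' d' : ℕ}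
    (h : OddForm n x c d) (h' : OddForm (r * n) x' c' d') {q k : ℕ} (hq : q.Prime)
    (hk0 : 0 < k) (hk : q ^ k ∣ d') (hqd : q ∣ d) : q ^ k ∣ r * d := by
  have hn : n ≠ 0 := by
    have := h.odd
    rintro rfl
    simp at this
  have : Fact q.Prime := ⟨hq⟩
  have hqd' : q ∣ d' := (dvd_pow_self q hk0.ne').trans hk
  have h1 := (one_lt_norm_iff q h).2 hqd
  have hX' : HasX (r • (n • P0)) x' := by
    have := h'.hasX
    rw [mul_zsmul, natCast_zsmul] at this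
    exact this
  have h2 := norm_smul_prime q h.hasX h1 (fun m hm => nsmul_P0_ne hn hm) hr hX'
  have h3 := norm_oddForm q h hqd
  have h4 := norm_oddForm q h' hqd'
  have hd0 : (d : ℚ) ≠ 0 := by exact_mod_cast h.d_pos.ne'
  have hd0' : (d' : ℚ) ≠ 0 := by exact_mod_cast h'.d_pos.ne'
  have n1 : 0 < padicNorm q (d : ℚ) :=
    lt_of_le_of_ne (padicNorm.nonneg _) (padicNorm.nonzero (p := q) hd0).symm
  have n2 : 0 < padicNorm q (d' : ℚ) :=
    lt_of_le_of_ne (padicNorm.nonneg _) (padicNorm.nonzero (p := q) hd0').symm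
  have hr0 : (r : ℚ) ≠ 0 := by exact_mod_cast hr.pos.ne'
  have n3 : 0 < padicNorm q (r : ℚ) :=
    lt_of_le_of_ne (padicNorm.nonneg _) (padicNorm.nonzero (p := q) hr0).symm
  have h5 : (padicNorm q (r : ℚ) * padicNorm q (d : ℚ)) ^ 2 = padicNorm q (d' : ℚ) ^ 2 := by
    have e1 : (padicNorm q (r : ℚ) * padicNorm q (d : ℚ)) ^ 2 =
        (padicNorm q x' * padicNorm q (d' : ℚ) ^ 2) *
          (padicNorm q (r : ℚ) * padicNorm q (d : ℚ)) ^ 2 := by rw [h4, one_mul]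
    rw [e1]
    calc _ = ((padicNorm q x' * padicNorm q (r : ℚ) ^ 2) * padicNorm q (d : ℚ) ^ 2) *
          padicNorm q (d' : ℚ) ^ 2 := by ring
      _ = _ := by rw [h2, h3, one_mul]
  have h6 : padicNorm q (r : ℚ) * padicNorm q (d : ℚ) = padicNorm q (d' : ℚ) :=
    (sq_eq_sq₀ (by positivity) n2.le).1 h5
  have h7 : padicNorm q ((r * d : ℕ) : ℚ) = padicNorm q (d' : ℚ) := by
    push_cast
    rw [padicNorm.mul, h6]
  have h8 : ((q ^ k : ℕ) : ℤ) ∣ (d' : ℤ) := by exact_mod_cast hk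
  rw [padicNorm.dvd_iff_norm_le] at h8
  have h9 : ((q ^ k : ℕ) : ℤ) ∣ ((r * d : ℕ) : ℤ) := by
    rw [padicNorm.dvd_iff_norm_le]
    have e : (((r * d : ℕ) : ℤ) : ℚ) = ((r * d : ℕ) : ℚ) := by push_cast; ring
    rw [e, h7]
    exact_mod_cast h8
  exact_mod_cast h9

/-- for all large odd multiples of fifteen a new prime appears -/
theorem exists_new35 : ∃ N0 : ℕ, ∀ m : ℕ, Odd m → N0 < 15 * m →
    ∀ (x x1 x2 : ℚ) (c d c1 d1 c2 d2 : ℕ), OddForm (15 * m : ℤ) x c d →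
      OddForm (5 * m : ℤ) x1 c1 d1 → OddForm (3 * m : ℤ) x2 c2 d2 →
    ∃ q : ℕ, q.Prime ∧ q ∣ d ∧ ¬ q ∣ d1 ∧ ¬ q ∣ d2 := by
  obtain ⟨κ, C0, hκ, hC0⟩ := odd_growth
  set C : ℝ := max C0 0 with hCdef
  have hC : ∀ (n : ℤ) (x : ℚ), Odd n → HasX (n • P0) x → |Real.log (H x) - κ * (n : ℝ) ^ 2| ≤ C :=
    fun n x hn hx => (hC0 n x hn hx).trans (le_max_left _ _)
  have hC1 : 0 ≤ C := le_max_right _ _
  obtain ⟨N0, hN0⟩ := exists_nat_gt (9 * (C + 12) / κ)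
  refine ⟨N0, fun m hm hN x x1 x2 c d c1 d1 c2 d2 h h1 h2 => ?_⟩
  by_contra hcon
  push Not at hcon
  have e1 : (15 * m : ℤ) = ((3 : ℕ) : ℤ) * (5 * m : ℤ) := by push_cast; ring
  have e2 : (15 * m : ℤ) = ((5 : ℕ) : ℤ) * (3 * m : ℤ) := by push_cast; ring
  have h31 : OddForm (((3 : ℕ) : ℤ) * (5 * m : ℤ)) x c d := by rw [← e1]; exact h
  have h52 : OddForm (((5 : ℕ) : ℤ) * (3 * m : ℤ)) x c d := by rw [← e2]; exact h
  have hdvd : d ∣ 15 * d1 * d2 := by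
    rw [Nat.dvd_iff_prime_pow_dvd_dvd]
    intro q k hq hk
    rcases Nat.eq_zero_or_pos k with hk0 | hk0
    · subst hk0; simp
    have hqd : q ∣ d := (dvd_pow_self q hk0.ne').trans hk
    by_cases hq1 : q ∣ d1
    · refine (pow_dvd_of_old Nat.prime_three h1 h31 hq hk0 hk hq1).trans ⟨5 * d2, by ring⟩
    · have hq2 := hcon q hq hqd hq1
      refine (pow_dvd_of_old Nat.prime_five h2 h52 hq hk0 hk hq2).trans ⟨3 * d1, by ring⟩
  have hle := Nat.le_of_dvd (Nat.mul_pos (Nat.mul_pos (by norm_num) h1.d_pos) h2.d_pos) hdvd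
  have l0 := log_d hC h
  have l1 := log_d hC h1
  have l2 := log_d hC h2
  rw [abs_le] at l0 l1 l2
  have hd : (0 : ℝ) < d := by exact_mod_cast h.d_pos
  have hd1 : (0 : ℝ) < d1 := by exact_mod_cast h1.d_pos
  have hd2 : (0 : ℝ) < d2 := by exact_mod_cast h2.d_pos
  have l3 : Real.log d ≤ Real.log 15 + Real.log d1 + Real.log d2 := by
    rw [← Real.log_mul (by norm_num) hd1.ne', ← Real.log_mul (by positivity) hd2.ne']
    apply Real.log_le_log hd
    exact_mod_cast hle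
  have l15 : Real.log 15 ≤ 14 := by
    have := Real.log_le_sub_one_of_pos (show (0 : ℝ) < 15 by norm_num)
    linarith
  have hm1 : (1 : ℝ) ≤ m := by
    have : 1 ≤ m := hm.pos
    exact_mod_cast this
  have hNm : (N0 : ℝ) < 15 * m := by exact_mod_cast hN
  have h15 : 9 * (C + 12) < κ * (15 * m) := by
    rw [div_lt_iff₀ hκ] at hN0
    nlinarith
  have a0 := l0.1
  have a1 := l1.2
  have a2 := l2.2
  push_cast at a0 a1 a2
  -- `κ m ^ 2 (225 - 25 - 9) ≤ 28 + 3 (C + 1)`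
  have key : κ * (m : ℝ) ^ 2 * 191 ≤ 28 + 3 * (C + 1) := by
    nlinarith
  have hk2 : κ * (m : ℝ) ≤ κ * (m : ℝ) ^ 2 := by
    have : (m : ℝ) ≤ (m : ℝ) ^ 2 := by nlinarith
    exact mul_le_mul_of_nonneg_left this hκ.le
  nlinarith

theorem rowPrim : RowPrim := by
  obtain ⟨N0, hN0⟩ := exists_new35
  refine ⟨N0, fun s t hs ht hN => ?_⟩
  obtain ⟨s, rfl⟩ : ∃ s', s = s' + 1 := ⟨s - 1, by omega⟩
  obtain ⟨t, rfl⟩ : ∃ t', t = t' + 1 := ⟨t - 1, by omega⟩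
  set m : ℕ := 3 ^ s * 5 ^ t with hm
  have hmo : Odd m := (Odd.pow (by decide)).mul (Odd.pow (by decide))
  have e : 3 ^ (s + 1) * 5 ^ (t + 1) = 15 * m := by rw [hm]; ring
  rw [e] at hN
  have hmz : Odd (m : ℤ) := by exact_mod_cast hmo
  obtain ⟨x, c, d, h⟩ := oddForm_exists (n := 15 * m) ((by decide : Odd (15 : ℤ)).mul hmz)
  obtain ⟨x1, c1, d1, h1⟩ := oddForm_exists (n := 5 * m) ((by decide : Odd (5 : ℤ)).mul hmz)
  obtain ⟨x2, c2, d2, h2⟩ := oddForm_exists (n := 3 * m) ((by decide : Odd (3 : ℤ)).mul hmz)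
  obtain ⟨q, hq, hqd, hq1, hq2⟩ := hN0 m hmo hN x x1 x2 c d c1 d1 c2 d2 h h1 h2
  have : Fact q.Prime := ⟨hq⟩
  have hcrit : ∀ (n : ℤ) (z : ℚ) (a b : ℕ), OddForm n z a b → (q ∣ b ↔ Dv q n) := by
    intro n z a b hz
    have hn0 : n ≠ 0 := by
      have := hz.odd
      rintro rfl
      simp at this
    rw [← one_lt_norm_iff q hz, ← D1.dvd_den_iff]
    unfold Dv
    rw [xc_of_hasX hz.hasX]
    simp [hn0]
  have b0 := (hcrit _ _ _ _ h).1 hqd
  have b1 := mt (hcrit _ _ _ _ h1).2 hq1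
  have b2 := mt (hcrit _ _ _ _ h2).2 hq2
  have hm0 : 0 < 15 * m := Nat.mul_pos (by norm_num) hmo.pos
  obtain ⟨M, hM, hMm⟩ := D1.rowO q hq (15 * m) hm0 (by exact_mod_cast b0)
  rw [hM.2] at b1 b2
  refine ⟨q, hq, ?_⟩
  rw [e]
  have b1' : ¬ M ∣ 5 * m := fun hh => b1 (by exact_mod_cast Int.natCast_dvd_natCast.2 hh)
  have b2' : ¬ M ∣ 3 * m := fun hh => b2 (by exact_mod_cast Int.natCast_dvd_natCast.2 hh)
  -- `M = 15 m`
  obtain ⟨k, hk⟩ := hMm
  have hk1 : k = 1 := by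
    by_contra hk1
    obtain ⟨p, hp, hpk⟩ := Nat.exists_prime_and_dvd hk1
    have hp15 : p ∣ 3 ^ (s + 1) * 5 ^ (t + 1) := by
      rw [e, hk]; exact hpk.mul_left _
    obtain ⟨j, rfl⟩ := hpk
    rcases (hp.dvd_mul).1 hp15 with h3 | h5
    · have : p = 3 := (Nat.prime_dvd_prime_iff_eq hp Nat.prime_three).1 (hp.dvd_of_dvd_pow h3)
      subst this
      apply b1'
      refine ⟨j, ?_⟩
      have : 3 * (5 * m) = 3 * (M * j) := by linarith
      exact Nat.eq_of_mul_eq_mul_left (by norm_num) this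
    · have : p = 5 := (Nat.prime_dvd_prime_iff_eq hp Nat.prime_five).1 (hp.dvd_of_dvd_pow h5)
      subst this
      apply b2'
      refine ⟨j, ?_⟩
      have : 5 * (3 * m) = 5 * (M * j) := by linarith
      exact Nat.eq_of_mul_eq_mul_left (by norm_num) this
  rw [hk, hk1, mul_one]
  exact hM

end Vale.Agent.P027.H123
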