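import Vale.Agent.P027.H123.Defs
import Vale.Agent.P027.R4.H815.Prim
import Vale.Agent.P027.R4.H788.Points

set_option linter.all false

/-! Valuations of the coordinates of multiples of a point in the kernel of reduction. -/

namespace Vale.Agent.P027.H123

open MvPolynomial Vale.Agent.P345 Vale.Agent.P027 Vale.Agent.P027.HT Vale.Agent.P027.D1
  Vale.Agent.P027.R4.H815

/-- multiplication by `m` -/
theorem norm_smul_nat (q : ℕ) [hq : Fact q.Prime] {V : EC.Point}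
    (hne : ∀ m : ℕ, 1 ≤ m → m • V ≠ 0) (hx : 1 < padicNorm q (xc V)) :
    ∀ m : ℕ, m ≠ 0 → padicNorm q (xc (m • V)) * padicNorm q m ^ 2 = padicNorm q (xc V) := by
  intro m
  induction m using induction_on_primes with
  | zero => intro h; exact absurd rfl h
  | one => intro _; simp
  | prime_mul p a hp ih =>
    intro h
    have ha : a ≠ 0 := by rintro rfl; simp at h
    have ih' := ih ha
    have hna : padicNorm q (a : ℚ) ≤ 1 := padicNorm.of_nat (p := q) a
    have hna0 : 0 ≤ padicNorm q (a : ℚ) := padicNorm.nonneg _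
    have hx' : 1 < padicNorm q (xc (a • V)) := by
      by_contra hcon
      push Not at hcon
      have h0 : 0 ≤ padicNorm q (xc (a • V)) := padicNorm.nonneg _
      have h1 : padicNorm q (a : ℚ) ^ 2 ≤ 1 := by nlinarith
      nlinarith
    have hne' : ∀ m : ℕ, 1 ≤ m → m • (a • V) ≠ 0 := by
      intro m hm
      rw [← mul_nsmul']
      exact hne _ (Nat.mul_pos hm (Nat.pos_of_ne_zero ha))
    have hV : HasX (a • V) (xc (a • V)) := by
      apply hasX_xc
      exact hne a (Nat.pos_of_ne_zero ha)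
    have hV' : HasX (p • (a • V)) (xc (p • (a • V))) := by
      apply hasX_xc
      exact hne' p hp.one_lt.le
    have h2 := norm_smul_prime q hV hx' hne' hp hV'
    have e : (p * a) • V = p • (a • V) := mul_nsmul' V p a
    rw [e, Nat.cast_mul, padicNorm.mul, mul_pow, ← mul_assoc, h2]
    exact ih'


/-- multiples of the point `m₀ P0` in the kernel of reduction -/
theorem norm_smul_int (q : ℕ) [hq : Fact q.Prime] {m₀ : ℤ} (hm₀ : m₀ ≠ 0)
    (h : 1 < padicNorm q (xc (m₀ • P0))) {k : ℤ} (hk : k ≠ 0) :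
    padicNorm q (xc ((m₀ * k) • P0)) * padicNorm q k ^ 2 = padicNorm q (xc (m₀ • P0)) := by
  have hne : ∀ m : ℕ, 1 ≤ m → m • (m₀ • P0) ≠ 0 := fun m hm => nsmul_P0_ne hm₀ hm
  have h1 := norm_smul_nat q hne h k.natAbs (Int.natAbs_ne_zero.2 hk)
  have e1 : k.natAbs • (m₀ • P0) = (m₀ * k.natAbs) • P0 := by
    rw [← natCast_zsmul, ← mul_zsmul, mul_comm]
  rw [e1] at h1
  rcases Int.natAbs_eq k with h2 | h2
  · rw [h2]
    simpa using h1
  · have e2 : (m₀ * k) • P0 = -((m₀ * k.natAbs) • P0) := by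
      rw [← neg_zsmul]
      congr 1
      nth_rewrite 1 [h2]
      ring
    have e3 : padicNorm q (k : ℚ) = padicNorm q (k.natAbs : ℚ) := by
      have h3 : (k : ℚ) = -((k.natAbs : ℕ) : ℚ) := by
        have h4 : ((k : ℤ) : ℚ) = ((-(k.natAbs : ℤ) : ℤ) : ℚ) := congrArg _ h2
        rw [h4, Int.cast_neg, Int.cast_natCast]
      rw [h3, padicNorm.neg]
    rw [e2, xc_neg, e3]
    exact h1

theorem val_smul_int (q : ℕ) [hq : Fact q.Prime] {m₀ : ℤ} (hm₀ : m₀ ≠ 0)
    (h : 1 < padicNorm q (xc (m₀ • P0))) {k : ℤ} (hk : k ≠ 0) :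
    xc ((m₀ * k) • P0) ≠ 0 ∧
    padicValRat q (xc ((m₀ * k) • P0)) =
      padicValRat q (xc (m₀ • P0)) - 2 * (padicValInt q k : ℤ) := by
  have h1 := norm_smul_int q hm₀ h hk
  have hB : xc (m₀ • P0) ≠ 0 := by
    intro h0
    rw [h0, padicNorm.zero] at h
    linarith
  have hk0 : (k : ℚ) ≠ 0 := by exact_mod_cast hk
  have hx : xc ((m₀ * k) • P0) ≠ 0 := by
    intro h0
    rw [h0, padicNorm.zero, zero_mul] at h1
    rw [← h1] at h
    linarith
  refine ⟨hx, ?_⟩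
  have hq0 : (q : ℚ) ≠ 0 := by exact_mod_cast hq.out.ne_zero
  have hq1 : (1 : ℚ) < q := by exact_mod_cast hq.out.one_lt
  rw [norm_eq_zpow q hx, norm_eq_zpow q hB, norm_eq_zpow q hk0, ← zpow_natCast, ← zpow_mul,
    ← zpow_add₀ hq0] at h1
  have h2 := zpow_right_injective₀ (by linarith) hq1.ne' h1
  rw [padicValRat.of_int] at h2
  push_cast at h2
  linarith

lemma norm_four_P0' : padicNorm 3 (xc ((4 : ℤ) • P0)) = 9 := by
  rw [xc_of_hasX hasX_four_P0, norm_four_P0]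

lemma hasX_three_P0 : HasX ((3 : ℤ) • P0) (-1 / 169) := by
  have h : HasX P0 (-1) := ⟨1, _, rfl⟩
  have h3 := hasX_triple h (by norm_num)
  have e : (3 : ℤ) • P0 = P0 + P0 + P0 := by
    rw [show (3 : ℤ) = 1 + 1 + 1 by norm_num, add_zsmul, add_zsmul, one_zsmul]
  rw [e]
  convert h3 using 1
  unfold phi psi
  norm_num

lemma hasX_five_P0 : HasX ((5 : ℤ) • P0) (-(1343 / 1525) ^ 2) := by
  have h : HasX P0 (-1) := ⟨1, _, rfl⟩
  obtain ⟨s, d, hs, hd, -, hprod⟩ := hasX_add_sub hasX_three_P0 hasX_two_P0 (by norm_num)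
  have e1 : (3 : ℤ) • P0 - (2 : ℤ) • P0 = P0 := by
    rw [sub_eq_add_neg, ← sub_zsmul]; norm_num
  have e2 : (3 : ℤ) • P0 + (2 : ℤ) • P0 = (5 : ℤ) • P0 := by
    rw [← add_zsmul]; norm_num
  rw [e1] at hd
  rw [e2] at hs
  have hd1 : d = -1 := hd.unique h
  rw [hd1] at hprod
  have : s = -(1343 / 1525) ^ 2 := by
    norm_num at hprod ⊢
    linarith
  rw [← this]
  exact hs

lemma norm_five_P0 : padicNorm 5 (xc ((5 : ℤ) • P0)) = 625 := by
  have : Fact (Nat.Prime 5) := ⟨Nat.prime_five⟩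
  rw [xc_of_hasX hasX_five_P0]
  have h1 : (-(1343 / 1525) ^ 2 : ℚ) = ((-1803649 : ℤ) : ℚ) / (((3721 : ℤ) : ℚ) * ((5 : ℕ) : ℚ) ^ 4) := by
    norm_num
  have h5 : padicNorm 5 (((5 : ℕ) : ℚ) ^ 4) = (5 : ℚ)⁻¹ ^ 4 := by
    have := padicNorm.padicNorm_p (p := 5) (by norm_num)
    rw [show (((5 : ℕ) : ℚ) ^ 4) = ((5 : ℕ) : ℚ) * ((5 : ℕ) : ℚ) * ((5 : ℕ) : ℚ) * ((5 : ℕ) : ℚ) by ring,
      padicNorm.mul, padicNorm.mul, padicNorm.mul, this]
    push_cast
    ring
  rw [h1, padicNorm.div, padicNorm.mul, h5, (padicNorm.int_eq_one_iff (-1803649)).2 (by norm_num),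
    (padicNorm.int_eq_one_iff 3721).2 (by norm_num)]
  norm_num

/-- the three-adic valuation of the index -/
theorem val_three {k : ℤ} (hk : k ≠ 0) : xc ((4 * k) • P0) ≠ 0 ∧
    padicValRat 3 (xc ((4 * k) • P0)) = -2 - 2 * (padicValInt 3 k : ℤ) := by
  have h := val_smul_int 3 (m₀ := 4) (by norm_num) (by rw [norm_four_P0']; norm_num) hk
  refine ⟨h.1, ?_⟩
  rw [h.2]
  have h9 := norm_four_P0'
  have h0 : xc ((4 : ℤ) • P0) ≠ 0 := by
    intro h0; rw [h0, padicNorm.zero] at h9; norm_num at h9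
  rw [norm_eq_zpow 3 h0] at h9
  have e : (9 : ℚ) = ((3 : ℕ) : ℚ) ^ (2 : ℤ) := by norm_num
  rw [e] at h9
  have := zpow_right_injective₀ (by norm_num) (by norm_num) h9
  linarith

/-- the five-adic valuation of the index -/
theorem val_five {k : ℤ} (hk : k ≠ 0) : xc ((5 * k) • P0) ≠ 0 ∧
    padicValRat 5 (xc ((5 * k) • P0)) = -4 - 2 * (padicValInt 5 k : ℤ) := by
  have : Fact (Nat.Prime 5) := ⟨Nat.prime_five⟩
  have h := val_smul_int 5 (m₀ := 5) (by norm_num) (by rw [norm_five_P0]; norm_num) hk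
  refine ⟨h.1, ?_⟩
  rw [h.2]
  have h9 := norm_five_P0
  have h0 : xc ((5 : ℤ) • P0) ≠ 0 := by
    intro h0; rw [h0, padicNorm.zero] at h9; norm_num at h9
  rw [norm_eq_zpow 5 h0] at h9
  have e : (625 : ℚ) = ((5 : ℕ) : ℚ) ^ (4 : ℤ) := by norm_num
  rw [e] at h9
  have := zpow_right_injective₀ (by norm_num) (by norm_num) h9
  linarith

end Vale.Agent.P027.H123
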